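import Vale.Agent.P167.H135.Z.Side
import Vale.Agent.P167.QB.Circ

/-!
# P167, general `q`, Q-NORM: the half box of a junction
-/

namespace Vale.Agent.P167.H135.Z

open Finset Relation
open Vale.Agent.P167.BR
open Vale.Agent.P167.Top
open Vale.Agent.P167.QB (adj_v adj_h row_adj col_adj adj_symm)
open Vale.Agent.P145.FB (PStep)
open Vale.Agent.P167.H632 (pr cs)
open Vale.Agent.P167.H825.Q (Row)
open Vale.Agent.P167.H945.Q (face faces lrs)
open Vale.Agent.P167.H871.Q
open Vale.Agent.P167.H871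
open Vale.Agent.P167.H562.MAJ (rect mem_rect mem_sites_rect econ_rect)

variable {r : Row} {b c : Bool} {ω : Cfg} {R s : ℤ} {t k i j : ℕ} {e x : Ed} {v z : ℤ × ℤ}

theorem scon_rect (x0 x1 y0 y1 : ℤ) : SCon (rect x0 x1 y0 y1) := by
  have key : ∀ v, v ∉ rect x0 x1 y0 y1 →
      ReflTransGen (Adj (rect x0 x1 y0 y1)) v (x0 - 1, y0 - 1) := by
    rintro ⟨v1, v2⟩ hv
    have hrow : ∀ x, (x, y0 - 1) ∉ rect x0 x1 y0 y1 := fun x hx => by
      rw [mem_rect] at hx
      simp only at hx
      omega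
    have hcol : ∀ y, (x0 - 1, y) ∉ rect x0 x1 y0 y1 := fun y hy => by
      rw [mem_rect] at hy
      simp only at hy
      omega
    rw [mem_rect] at hv
    simp only at hv
    by_cases h1 : v1 < x0 ∨ x1 ≤ v1
    · exact (col_adj (fun y hy => by rw [mem_rect] at hy; simp only at hy; omega) v2
        (y0 - 1)).trans (row_adj hrow _ _)
    · exact (row_adj (fun x hx => by rw [mem_rect] at hx; simp only at hx; omega) v1
        (x0 - 1)).trans (col_adj hcol _ _)
  exact fun _ _ _ _ h1 h2 => (key _ h1).trans (adj_symm (key _ h2))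

/-- The half box as a rectangle, with depth `R - 1`. -/
theorem Db_rect (r : Row) (b : Bool) (R : ℤ) : Db r b R = rect
    (if r.o then r.x.1 + r.k0 - R else if b then r.x.1 + 1 else r.x.1 - R + 1)
    (if r.o then r.x.1 + r.k0 + R else if b then r.x.1 + R else r.x.1)
    (if r.o then (if b then r.x.2 + 1 else r.x.2 - R + 1) else r.x.2 + r.k0 - R)
    (if r.o then (if b then r.x.2 + R else r.x.2) else r.x.2 + r.k0 + R) := by
  ext v
  rw [mem_Db, mem_bxJ, mem_rect]
  unfold Sd
  by_cases ho : r.o = true <;> cases b <;>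
    simp only [ho, if_true, if_false, Bool.false_eq_true] <;> omega

theorem scon_Db : SCon (Db r b R) := by
  rw [Db_rect]
  exact scon_rect _ _ _ _

theorem econ_Db (h : 2 ≤ R) : ECon (Db r b R) := by
  rw [Db_rect]
  apply econ_rect <;> split_ifs <;> omega

/-- The site `z` is in the closed half box of radius `R`, depth `R - 1`. -/
theorem mem_sites_Db (h : 2 ≤ R) : z ∈ sites (Db r b R) ↔ if r.o then
      (r.x.1 + r.k0 - R ≤ z.1 ∧ z.1 ≤ r.x.1 + r.k0 + R ∧
        if b then r.x.2 + 1 ≤ z.2 ∧ z.2 ≤ r.x.2 + R else r.x.2 - R + 1 ≤ z.2 ∧ z.2 ≤ r.x.2)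
    else (r.x.2 + r.k0 - R ≤ z.2 ∧ z.2 ≤ r.x.2 + r.k0 + R ∧
        if b then r.x.1 + 1 ≤ z.1 ∧ z.1 ≤ r.x.1 + R else r.x.1 - R + 1 ≤ z.1 ∧ z.1 ≤ r.x.1) := by
  rw [Db_rect, mem_sites_rect (by split_ifs <;> omega) (by split_ifs <;> omega)]
  by_cases ho : r.o = true <;> cases b <;>
    simp only [ho, if_true, if_false, Bool.false_eq_true] <;> omega

theorem st_mem (h : 2 ≤ R) {t : ℤ} (h1 : r.k0 - R ≤ t) (h2 : t ≤ r.k0 + R) :
    st r b t ∈ sites (Db r b R) := by
  rw [mem_sites_Db h]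
  unfold st
  by_cases ho : r.o = true <;> cases b <;>
    simp only [ho, if_true, if_false, Bool.false_eq_true] <;> omega

theorem osq_mem (h : 2 ≤ R) (h1 : r.k0 - R ≤ k) (h2 : (k : ℤ) < r.k0 + R) :
    osq r b k ∈ Db r b R := by
  rw [mem_Db, mem_bxJ]
  refine ⟨?_, sd_osq _ _ _⟩
  unfold osq
  by_cases ho : r.o = true <;> cases b <;>
    simp only [ho, if_true, if_false, Bool.false_eq_true] <;> omega

theorem sq_not_mem (r : Row) (b : Bool) (k : ℕ) : r.sq k ∉ Db r b R := by
  rw [mem_Db]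
  rintro ⟨-, h⟩
  unfold Sd Row.sq at h
  by_cases ho : r.o = true <;> cases b <;> simp [ho] at h

theorem face_eds (h : 2 ≤ R) (h1 : r.k0 - R ≤ k) (h2 : (k : ℤ) < r.k0 + R) :
    face r b k ∈ eds (Db r b R) := by
  have h3 := osq_mem (b := b) h h1 h2
  rw [mem_eds]
  rcases face_sq r b k with ⟨h4, h5⟩ | ⟨h4, h5⟩
  · right; rw [h5]; exact h3
  · left; rw [h4]; exact h3

theorem face_bd (r : Row) (b : Bool) (k : ℕ) : hdv (face r b k) ∉ Db r b R ∨
    tlv (face r b k) ∉ Db r b R := by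
  rcases face_sq r b k with ⟨h4, h5⟩ | ⟨h4, h5⟩
  · left; rw [h4]; exact sq_not_mem _ _ _
  · right; rw [h5]; exact sq_not_mem _ _ _

/-- The squares and the sites of an edge. -/
theorem edge_cases (x : Ed) : (∃ p q : ℤ, x = Sum.inl (p, q) ∧
      ((hdv x = (p, q) ∧ tlv x = (p + 1, q)) ∨ (hdv x = (p + 1, q) ∧ tlv x = (p, q))) ∧
      ∀ c, (sd c x).1 = p + 1 ∧ ((sd c x).2 = q ∨ (sd c x).2 = q + 1)) ∨
    (∃ p q : ℤ, x = Sum.inr (p, q) ∧
      ((hdv x = (p, q) ∧ tlv x = (p, q + 1)) ∨ (hdv x = (p, q + 1) ∧ tlv x = (p, q))) ∧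
      ∀ c, (sd c x).2 = q + 1 ∧ ((sd c x).1 = p ∨ (sd c x).1 = p + 1)) := by
  rcases x with ⟨p, q⟩ | ⟨p, q⟩
  · left
    refine ⟨p, q, rfl, ?_, fun c => ?_⟩
    · by_cases h : Even (p + q) <;> simp [hdv, tlv, h]
    · by_cases h : Even (p + q) <;> cases c <;> simp [sd, ls, rs, h]
  · right
    refine ⟨p, q, rfl, ?_, fun c => ?_⟩
    · by_cases h : Even (p + q) <;> simp [hdv, tlv, h]
    · by_cases h : Even (p + q) <;> cases c <;> simp [sd, ls, rs, h]

/-- A boundary edge of the half box is on the face or far. -/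
theorem bd_cases (h : Gd r R) (h1 : (hdv x ∈ Db r b R ∧ tlv x ∉ Db r b R) ∨
    (hdv x ∉ Db r b R ∧ tlv x ∈ Db r b R)) :
    (∃ k : ℕ, r.k0 - R ≤ k ∧ (k : ℤ) < r.k0 + R ∧ x = face r b k) ∨
      ∀ c, R - 1 ≤ nm (sd c x - pc r b) := by
  have g2 := h.h2
  have g3 := h.lo
  have nmle : ∀ z : ℤ × ℤ, (R - 1 ≤ z.1 - (pc r b).1 ∨ R - 1 ≤ (pc r b).1 - z.1 ∨
      R - 1 ≤ z.2 - (pc r b).2 ∨ R - 1 ≤ (pc r b).2 - z.2) → R - 1 ≤ nm (z - pc r b) := by
    intro z hz
    change R - 1 ≤ max |z.1 - (pc r b).1| |z.2 - (pc r b).2|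
    rw [le_max_iff, le_abs, le_abs]
    omega
  simp only [mem_Db, mem_bxJ] at h1
  rcases edge_cases x with ⟨p, q, hx, hsq, hsd⟩ | ⟨p, q, hx, hsq, hsd⟩
  · by_cases ho : r.o = true
    · right
      intro c
      apply nmle
      have h3 := hsd c
      unfold pc st
      unfold Sd at h1
      cases b <;> simp only [ho, if_true, if_false, Bool.false_eq_true] at h1 ⊢ <;>
        rcases hsq with ⟨h4, h5⟩ | ⟨h4, h5⟩ <;> rw [h4, h5] at h1 <;> simp only at h1 <;> omega
    · by_cases hp : if b then p = r.x.1 else p + 1 = r.x.1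
      · left
        refine ⟨(q - r.x.2).toNat, ?_, ?_, ?_⟩
        · unfold Sd at h1
          cases b <;> simp only [ho, if_true, if_false, Bool.false_eq_true] at h1 hp ⊢ <;>
            rcases hsq with ⟨h4, h5⟩ | ⟨h4, h5⟩ <;> rw [h4, h5] at h1 <;> simp only at h1 <;> omega
        · unfold Sd at h1
          cases b <;> simp only [ho, if_true, if_false, Bool.false_eq_true] at h1 hp ⊢ <;>
            rcases hsq with ⟨h4, h5⟩ | ⟨h4, h5⟩ <;> rw [h4, h5] at h1 <;> simp only at h1 <;> omega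
        · rw [hx]
          have h6 : 0 ≤ q - r.x.2 := by
            unfold Sd at h1
            cases b <;> simp only [ho, if_true, if_false, Bool.false_eq_true] at h1 hp ⊢ <;>
              rcases hsq with ⟨h4, h5⟩ | ⟨h4, h5⟩ <;> rw [h4, h5] at h1 <;> simp only at h1 <;>
              omega
          unfold face Row.sq
          cases b <;> simp only [ho, if_true, if_false, Bool.false_eq_true] at hp ⊢ <;>
            rw [Int.toNat_of_nonneg h6] <;> congr 2 <;> omega
      · right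
        intro c
        apply nmle
        have h3 := hsd c
        unfold pc st
        unfold Sd at h1
        cases b <;> simp only [ho, if_true, if_false, Bool.false_eq_true] at h1 hp ⊢ <;>
          rcases hsq with ⟨h4, h5⟩ | ⟨h4, h5⟩ <;> rw [h4, h5] at h1 <;> simp only at h1 <;> omega
  · by_cases ho : r.o = true
    · by_cases hp : if b then q = r.x.2 else q + 1 = r.x.2
      · left
        refine ⟨(p - r.x.1).toNat, ?_, ?_, ?_⟩
        · unfold Sd at h1
          cases b <;> simp only [ho, if_true, if_false, Bool.false_eq_true] at h1 hp ⊢ <;>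
            rcases hsq with ⟨h4, h5⟩ | ⟨h4, h5⟩ <;> rw [h4, h5] at h1 <;> simp only at h1 <;> omega
        · unfold Sd at h1
          cases b <;> simp only [ho, if_true, if_false, Bool.false_eq_true] at h1 hp ⊢ <;>
            rcases hsq with ⟨h4, h5⟩ | ⟨h4, h5⟩ <;> rw [h4, h5] at h1 <;> simp only at h1 <;> omega
        · rw [hx]
          have h6 : 0 ≤ p - r.x.1 := by
            unfold Sd at h1
            cases b <;> simp only [ho, if_true, if_false, Bool.false_eq_true] at h1 hp ⊢ <;>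
              rcases hsq with ⟨h4, h5⟩ | ⟨h4, h5⟩ <;> rw [h4, h5] at h1 <;> simp only at h1 <;>
              omega
          unfold face Row.sq
          cases b <;> simp only [ho, if_true, if_false, Bool.false_eq_true] at hp ⊢ <;>
            rw [Int.toNat_of_nonneg h6] <;> congr 2 <;> omega
      · right
        intro c
        apply nmle
        have h3 := hsd c
        unfold pc st
        unfold Sd at h1
        cases b <;> simp only [ho, if_true, if_false, Bool.false_eq_true] at h1 hp ⊢ <;>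
          rcases hsq with ⟨h4, h5⟩ | ⟨h4, h5⟩ <;> rw [h4, h5] at h1 <;> simp only at h1 <;> omega
    · right
      intro c
      apply nmle
      have h3 := hsd c
      unfold pc st
      unfold Sd at h1
      cases b <;> simp only [ho, if_true, if_false, Bool.false_eq_true] at h1 ⊢ <;>
        rcases hsq with ⟨h4, h5⟩ | ⟨h4, h5⟩ <;> rw [h4, h5] at h1 <;> simp only at h1 <;> omega

end Vale.Agent.P167.H135.Z
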