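import Vale.Agent.P167.H469.LDefs
import Vale.Agent.P167.H945.Q.TDefs

/-!
# P167, general `q`, Q-NORM: strands over a junction and arms, definitions

Near the junction of a row, on the side `b` of the row. `st r b t`: the sites of the line of the face;
`pc r b`: the site of the junction. `ov r b c t R`: the strands over the site `t` in the box of radius
`R` whose outer side has the colour `c`. `AR`: arms.
-/

namespace Vale.Agent.P167.H135.Z

open Finset Relation
open Vale.Agent.P145.FB (PStep)
open Vale.Agent.P167.H632 (pr)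
open Vale.Agent.P167.H825.Q (Row)
open Vale.Agent.P167.H945.Q (faces lrs)

/-- The sites of the line of the face `b`; `face r b k` is between `k` and `k + 1`. -/
def st (r : Row) (b : Bool) (t : ℤ) : ℤ × ℤ :=
  if r.o then (r.x.1 + t, r.x.2 + if b then 1 else 0) else (r.x.1 + if b then 1 else 0, r.x.2 + t)

/-- The site of the junction on the face `b`. -/
def pc (r : Row) (b : Bool) : ℤ × ℤ := st r b r.k0

/-- The square `v` is on the side `b` of the row. -/
def Sd (r : Row) (b : Bool) (v : ℤ × ℤ) : Prop :=
  if r.o then (if b then r.x.2 < v.2 else v.2 < r.x.2) else (if b then r.x.1 < v.1 else v.1 < r.x.1)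

instance (r : Row) (b : Bool) : DecidablePred (Sd r b) := fun _ => by unfold Sd; infer_instance

/-- The box of a junction. -/
noncomputable def bxJ (r : Row) (R : ℤ) : Finset (ℤ × ℤ) :=
  if r.o then Ico ((r.sq r.k0).1 - R) ((r.sq r.k0).1 + R) ×ˢ
    Ico ((r.sq r.k0).2 - R + 1) ((r.sq r.k0).2 + R)
  else Ico ((r.sq r.k0).1 - R + 1) ((r.sq r.k0).1 + R) ×ˢ
    Ico ((r.sq r.k0).2 - R) ((r.sq r.k0).2 + R)

/-- The part of the box on the side `b`. -/
noncomputable def Db (r : Row) (b : Bool) (R : ℤ) : Finset (ℤ × ℤ) := (bxJ r R).filter (Sd r b)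

/-- Joined by a path of colour `c` in the squares of `A`. -/
def Rc (c : Bool) (A : Finset (ℤ × ℤ)) (ω : Cfg) (u v : ℤ × ℤ) : Prop :=
  ReflTransGen (PStep {w | ω w = c ∧ w ∈ A}) u v

/-- An arm of colour `c` in the squares of `A` from `v` to distance `R` of the junction. -/
def AR (r : Row) (b c : Bool) (A : Finset (ℤ × ℤ)) (v : ℤ × ℤ) (R : ℤ) : Set Cfg :=
  {ω | ∃ z : ℤ × ℤ, R ≤ nm (z - pc r b) ∧ Rc c A ω v z}

/-- The strands over the site `t` of the face `b`, in the box of radius `R` of the junction, with
outer side of colour `c`. -/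
noncomputable def ov (r : Row) (b c : Bool) (t : ℕ) (R : ℤ) (ω : Cfg) : Finset Ed :=
  if c = decide (r.o = b) then lrs r.I (faces r b 0 t) (faces r b t r.L) (bxJ r R) ω
  else lrs r.I (faces r b t r.L) (faces r b 0 t) (bxJ r R) ω

/-- The site of colour `c` of an edge. -/
def sd (c : Bool) (x : Ed) : ℤ × ℤ := if c then ls x else rs x

/-- There is exactly one strand over the junction in the box of radius `s`; it starts at `x` and its
outer side has the colour `c`. -/
def E1 (r : Row) (b c : Bool) (x : Ed) (s : ℤ) : Set Cfg :=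
  {ω | ov r b c r.k0 s ω = {x} ∧ ov r b (!c) r.k0 s ω = ∅}

end Vale.Agent.P167.H135.Z
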