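import Vale.Agent.P167.H135.Z.Up

/-!
# P167, general `q`, Q-NORM: extension of the arms of a site of a face
-/

namespace Vale.Agent.P167.H135.Z

open Finset Relation
open Vale.Agent.P167.BR
open Vale.Agent.P167.Top
open Vale.Agent.P167.XDL (bS mem_bS)
open Vale.Agent.P167.H199 (strand ret Returns mem_strand ret_le ret_min)
open Vale.Agent.P167.QX (exc mem_exc exc_last exc_ni exc_nx exc_disj ExtPot out_stays)
open Vale.Agent.P145.FB (PStep)
open Vale.Agent.P167.H632 (pr cs)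
open Vale.Agent.P167.H825.Q (Row)
open Vale.Agent.P167.H945.Q (face faces lrs)
open Vale.Agent.P167.H871.Q
open Vale.Agent.P167.H871
open Vale.Agent.P167.H469 (CP)

variable {r : Row} {b c c1 c2 f : Bool} {ω : Cfg} {R R1 s r1 r2 : ℤ} {t k i j : ℕ} {e x : Ed}
  {v z : ℤ × ℤ} {D A A' : Finset (ℤ × ℤ)} {φ : ℤ × ℤ → ℤ}

theorem Db_off (v : ℤ × ℤ) (hv : v ∈ Db r b R) : v ∉ r.I := by
  intro hI
  obtain ⟨k, -, rfl⟩ := mem_image.1 (show v ∈ (range r.L).image r.sq from hI)
  exact sq_not_mem _ _ _ hv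

theorem Sd_off (v : ℤ × ℤ) (hv : Sd r b v) : v ∉ r.I := by
  intro hI
  obtain ⟨k, -, rfl⟩ := mem_image.1 (show v ∈ (range r.L).image r.sq from hI)
  unfold Sd Row.sq at hv
  by_cases ho : r.o = true <;> cases b <;> simp [ho] at hv

theorem Db_mono (h : R ≤ R1) : Db r b R ⊆ Db r b R1 := by
  intro v hv
  rw [mem_Db, mem_bxJ] at hv ⊢
  refine ⟨?_, hv.2⟩
  have h1 := hv.1
  split_ifs at h1 ⊢ <;> omega

/-- A corner of a square on the side `b` off the box is far. -/
theorem far_side (h : 2 ≤ R) (hv : v ∉ bxJ r R) (hs : Sd r b v) (hz : IsC v z) :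
    R - 1 ≤ nm (z - pc r b) := by
  change R - 1 ≤ max |z.1 - (pc r b).1| |z.2 - (pc r b).2|
  rw [le_max_iff, le_abs, le_abs]
  rw [mem_bxJ] at hv
  obtain ⟨h1, h2⟩ := hz
  unfold Sd at hs
  unfold pc st
  by_cases ho : r.o = true <;> cases b <;>
    simp only [ho, if_true, if_false, Bool.false_eq_true] at hv hs ⊢ <;> omega

/-- The sites of the half box are near. -/
theorem near_sites (h : 2 ≤ R) (hz : z ∈ sites (Db r b R)) : nm (z - pc r b) ≤ R := by
  rw [mem_sites_Db h] at hz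
  change max |z.1 - (pc r b).1| |z.2 - (pc r b).2| ≤ R
  rw [max_le_iff, abs_le, abs_le]
  unfold pc st
  by_cases ho : r.o = true <;> cases b <;>
    simp only [ho, if_true, if_false, Bool.false_eq_true] at hz ⊢ <;> omega

/-- A corner of a square on the side `b` at distance `≤ R - 1` is in the half box. -/
theorem sites_near (h : 2 ≤ R) (hs : Sd r b v) (hz : IsC v z) (hn : nm (z - pc r b) ≤ R - 1) :
    z ∈ sites (Db r b R) := by
  rw [mem_sites_Db h]
  change max |z.1 - (pc r b).1| |z.2 - (pc r b).2| ≤ R - 1 at hn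
  rw [max_le_iff, abs_le, abs_le] at hn
  obtain ⟨h1, h2⟩ := hz
  unfold Sd at hs
  unfold pc st at hn
  by_cases ho : r.o = true <;> cases b <;>
    simp only [ho, if_true, if_false, Bool.false_eq_true] at hn hs ⊢ <;> omega

theorem rc_first (h : Rc c A ω v z) (hne : v ≠ z) : ∃ w ∈ A, IsC w v := by
  unfold Rc at h
  rcases ReflTransGen.cases_head h with h | ⟨u, ⟨h1, h2, h3, h4⟩, -⟩
  · exact absurd h hne
  · refine ⟨_, h4, ?_, ?_⟩ <;> dsimp only <;> omega

/-- **A strand over a site near the junction does not leave the box** if the half annulus is not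
crossed in one colour and if there is a path from near the junction to the outer box. -/
theorem ext_str (h : Gd r R1) (h1 : 1 ≤ r2) (h2 : r2 + 1 ≤ r1) (h3 : 2 ≤ R) (h4 : R ≤ R1)
    (h4' : r2 < R1) (ht1 : (r.k0 : ℤ) - r2 ≤ t) (ht2 : (t : ℤ) ≤ r.k0 + r2)
    (hA : ∀ v ∈ A, Sd r b v)
    (hC1 : ω ∉ CP c1 (Db r b R1) (pc r b) r1 (R - 1)) (hC2 : ω ∈ CP c2 A (pc r b) r2 R1)
    (he : e ∈ ov r b c t R1 ω) : e ∈ ov r b c t R ω := by
  have g1 := h.h2
  have g2 := h.lo
  have g3 := h.hi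
  obtain ⟨i, j, φ, P⟩ := exists_pot h (by omega) he
  by_contra hno
  have hst : ¬ Stays r.I (bxJ r R : Set (ℤ × ℤ)) ω e := by
    intro hs
    exact hno ((mem_ov (by omega)).2 ⟨i, j, P.hi, P.hj, P.fi, P.fj, P.ou, P.tl, P.rt, hs, P.dir⟩)
  unfold Stays at hst
  push Not at hst
  obtain ⟨k, hk, hkB⟩ := hst
  have hy : (nx ω)^[k] e ∈ exc r.I ω e := mem_exc.2 ⟨k, hk.le, rfl⟩
  by_cases hV : ∃ x ∈ exc r.I ω e, x ∈ eds (Db r b (r2 + 1))
  · obtain ⟨x, hx, hxe⟩ := hV
    apply hC1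
    refine ⟨sd c1 x, sd c1 ((nx ω)^[k] e), sd_par _ _, ?_, ?_, P.rc' h hx hy c1⟩
    · have h5 : sd c1 x ∈ sites (Db r b (r2 + 1)) := by
        rw [mem_sites]
        obtain ⟨h6, h7⟩ := sd_isC c1 x
        rcases mem_eds.1 hxe with h8 | h8
        · exact ⟨_, h8, h6⟩
        · exact ⟨_, h8, h7⟩
      have := near_sites (by omega) h5
      omega
    · exact far_side h3 (fun h => hkB (mem_coe.2 h)) (P.side h k hk) (sd_isC c1 _).1
  · push Not at hV
    have hcon : ∀ s t, ReflTransGen (Ec (Db r b (r2 + 1))) s t → φ s = φ t := by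
      intro s t h
      induction h with
      | refl => rfl
      | tail _ h ih =>
        rw [ih]
        obtain ⟨x, hx, h5⟩ := h
        have h6 := P.pt.jp x (by
          rcases mem_eds.1 hx with h6 | h6
          · exact Or.inl (Db_off _ h6)
          · exact Or.inr (Db_off _ h6))
        rw [if_neg (fun h7 => hV x (mem_coe.1 h7) hx), add_zero] at h6
        rcases h5 with ⟨h5, h7⟩ | ⟨h5, h7⟩ <;> rw [← h5, ← h7]
        · exact h6
        · exact h6.symm
    obtain ⟨u, w, h5, h6, h7, h8⟩ := hC2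
    have huw : u ≠ w := by
      rintro rfl
      omega
    obtain ⟨w0, hw0, hw1⟩ := rc_first h8 huw
    have h9 := hcon _ _ (econ_Db (r := r) (b := b) (R := r2 + 1) (by omega) (st r b t)
      (st_mem (by omega) (by omega) (by omega)) u
      (sites_near (by omega) (hA _ hw0) hw1 (by omega)))
    have h10 := P.pt.rc (A := A) (fun v hv => Sd_off v (hA v hv)) h5 h8
    obtain ⟨v, hv, hvz⟩ := far_corner h h7
    have h11 := (P.vals t (by omega)).2 P.min_lt
    rw [h9, h10, P.off v hv w hvz] at h11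
    exact h11 rfl

/-- **(EXT)** -/
theorem arm_ext (h : Gd r R1) (h1 : 1 ≤ r2) (h2 : r2 + 1 ≤ r1) (h3 : 2 ≤ R) (h4 : R ≤ R1)
    (h4' : r2 < R) (ht1 : (r.k0 : ℤ) - r2 ≤ t) (ht2 : (t : ℤ) ≤ r.k0 + r2)
    (hp : ((st r b t).1 + (st r b t).2) % 2 = pr f)
    (hA : ∀ v ∈ A, Sd r b v) (hA' : ∀ v ∈ A', Sd r b v)
    (hω : ω ∈ AR r b f A' (st r b t) R)
    (hC1 : ω ∉ CP c1 (Db r b R1) (pc r b) r1 (R - 1)) (hC2 : ω ∈ CP c2 A (pc r b) r2 R1) :
    ω ∈ AR r b f (Db r b R1) (st r b t) (R1 - 1) := by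
  have g1 := h.h2
  have g2 := h.lo
  have g3 := h.hi
  apply arm_of_ov h (by omega) (by omega) hp
  rw [eq_empty_iff_forall_notMem]
  intro e he
  have h5 := ext_str h h1 h2 h3 h4 (by omega) ht1 ht2 hA hC1 hC2 he
  rw [ov_of_arm ⟨h3, by omega, by omega⟩ (by omega) hp (fun v hv => Sd_off v (hA' v hv)) hω] at h5
  exact notMem_empty _ h5

end Vale.Agent.P167.H135.Z
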