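import Vale.Agent.P167.H135.Z.Def
import Vale.Agent.P167.H871.Q.AltT
import Vale.Agent.P167.BR.Join

/-!
# P167, general `q`, Q-NORM: potentials and paths
-/

namespace Vale.Agent.P167.H135.Z

open Finset Relation
open Vale.Agent.P167.BR
open Vale.Agent.P145.FB (PStep)
open Vale.Agent.P167.H632 (pr cs)
open Vale.Agent.P167.H825.Q (Row)
open Vale.Agent.P167.H945.Q (face faces lrs)

variable {ω : Cfg} {V : Set (ℤ × ℤ)} {S : Set Ed} {u : ℤ × ℤ → ℤ} {e : Ed}

open Classical in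
/-- A potential of a set of edges which is closed under the successor at the squares of `V`. -/
structure Pt (ω : Cfg) (V : Set (ℤ × ℤ)) (S : Set Ed) (u : ℤ × ℤ → ℤ) : Prop where
  cl : ∀ x, hdv x ∈ V → (x ∈ S ↔ nx ω x ∈ S)
  jp : ∀ x, hdv x ∈ V ∨ tlv x ∈ V → u (ls x) = u (rs x) + if x ∈ S then 1 else 0

theorem Pt.mono {V' : Set (ℤ × ℤ)} (h : Pt ω V S u) (hV : V' ⊆ V) : Pt ω V' S u :=
  ⟨fun x hx => h.cl x (hV hx), fun x hx => h.jp x (hx.imp (fun h => hV h) fun h => hV h)⟩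

theorem Pt.aux (h : Pt ω V S u) (he : hdv e ∈ V) :
    (ω (hdv e) = true → u (ls (nx ω e)) = u (ls e)) ∧
    (ω (hdv e) = false → u (rs (nx ω e)) = u (rs e)) := by
  have h1 := h.jp e (Or.inl he)
  have h2 := h.jp (nx ω e) (Or.inr (by rw [tlv_nx]; exact he))
  have h3 := h.cl e he
  have h4 : u (ls (nx ω e)) - u (rs (nx ω e)) = u (ls e) - u (rs e) := by
    by_cases h : e ∈ S
    · rw [if_pos h] at h1
      rw [if_pos (h3.1 h)] at h2
      omega
    · rw [if_neg h] at h1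
      rw [if_neg (fun h' => h (h3.2 h'))] at h2
      omega
  constructor
  · intro h0
    rw [rs_nx h0] at h4
    omega
  · intro h0
    rw [ls_nx h0] at h4
    omega

theorem Pt.sq (hu : Pt ω V S u) {x y : ℤ} (hv : (x, y) ∈ V) :
    ((Even (x + y) ∧ ω (x, y) = true) ∨ (¬ Even (x + y) ∧ ω (x, y) = false) →
      u (x, y) = u (x + 1, y + 1)) ∧
    ((¬ Even (x + y) ∧ ω (x, y) = true) ∨ (Even (x + y) ∧ ω (x, y) = false) →
      u (x + 1, y) = u (x, y + 1)) := by
  by_cases hev : Even (x + y)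
  · have h1 := hu.aux (e := Sum.inr (x, y)) (by simpa [hdv, hev] using hv)
    constructor
    · rintro (⟨-, h0⟩ | ⟨h0, -⟩)
      · have h2 := h1.1 (by simpa [hdv, hev] using h0)
        simpa [nx, ls, hev, h0, ev3] using h2
      · exact absurd hev h0
    · rintro (⟨h0, -⟩ | ⟨-, h0⟩)
      · exact absurd hev h0
      · have h2 := h1.2 (by simpa [hdv, hev] using h0)
        simpa [nx, rs, hev, h0, ev3] using h2
  · have h1 := hu.aux (e := Sum.inl (x, y)) (by simpa [hdv, hev] using hv)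
    constructor
    · rintro (⟨h0, -⟩ | ⟨-, h0⟩)
      · exact absurd h0 hev
      · have h2 := h1.2 (by simpa [hdv, hev] using h0)
        simpa [nx, rs, hev, h0, ev4] using h2
    · rintro (⟨-, h0⟩ | ⟨h0, -⟩)
      · have h2 := h1.1 (by simpa [hdv, hev] using h0)
        have h3 : u (x, y + 1) = u (x + 1, y) := by
          simpa [nx, ls, hev, h0, ev4] using h2
        exact h3.symm
      · exact absurd h0 hev

/-- Potentials are constant along the steps of the colour of the sites. -/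
theorem Pt.step (hu : Pt ω V S u) {c : Bool} {s t : ℤ × ℤ} (hs : (s.1 + s.2) % 2 = pr c)
    (hst : PStep {w | ω w = c ∧ w ∈ V} s t) : u s = u t := by
  obtain ⟨x, y⟩ := s
  obtain ⟨x', y'⟩ := t
  rw [par_iff] at hs
  obtain ⟨h1, h2, h0, hv⟩ := hst
  simp only at h1 h2 h0 hv hs
  have e1 : ∀ a : ℤ, min a (a + 1) = a := fun a => by omega
  have e2 : ∀ a : ℤ, min a (a - 1) = a - 1 := fun a => by omega
  have p1 : ∀ a b : ℤ, Even (a - 1 + (b - 1)) ↔ Even (a + b) := fun a b => by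
    rw [Int.even_iff, Int.even_iff]; omega
  rcases hs with ⟨rfl, hev⟩ | ⟨rfl, hev⟩ <;> rcases h1 with h1 | h1 <;> rcases h2 with h2 | h2 <;>
    subst h1 <;> subst h2 <;> simp only [e1, e2] at h0 hv
  · exact (hu.sq hv).1 (Or.inl ⟨hev, h0⟩)
  · have := (hu.sq hv).2 (Or.inl ⟨by rw [ev4]; simpa using hev, h0⟩)
    simpa using this.symm
  · have := (hu.sq hv).2 (Or.inl ⟨by rw [ev3]; simpa using hev, h0⟩)
    simpa using this
  · have := (hu.sq hv).1 (Or.inl ⟨by rw [p1]; exact hev, h0⟩)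
    simpa using this.symm
  · exact (hu.sq hv).1 (Or.inr ⟨hev, h0⟩)
  · have := (hu.sq hv).2 (Or.inr ⟨by rw [ev4]; simpa using hev, h0⟩)
    simpa using this.symm
  · have := (hu.sq hv).2 (Or.inr ⟨by rw [ev3]; simpa using hev, h0⟩)
    simpa using this
  · have := (hu.sq hv).1 (Or.inr ⟨by rw [p1]; exact hev, h0⟩)
    simpa using this.symm

theorem rc_par {c : Bool} {A : Finset (ℤ × ℤ)} {s t : ℤ × ℤ} (h : Rc c A ω s t) :
    (t.1 + t.2) % 2 = (s.1 + s.2) % 2 := by
  induction h with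
  | refl => rfl
  | tail _ h ih => rw [pstep_par h, ih]

/-- **Potentials are constant along paths.** -/
theorem Pt.rc (hu : Pt ω V S u) {c : Bool} {A : Finset (ℤ × ℤ)} (hA : ∀ v ∈ A, v ∈ V)
    {s t : ℤ × ℤ} (hs : (s.1 + s.2) % 2 = pr c) (h : Rc c A ω s t) : u s = u t := by
  induction h with
  | refl => rfl
  | tail h0 h ih =>
    rw [ih]
    refine hu.step (c := c) (by rw [rc_par h0]; exact hs) ?_
    obtain ⟨h1, h2, h3, h4⟩ := h
    exact ⟨h1, h2, h3, hA _ h4⟩

end Vale.Agent.P167.H135.Z
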