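import Vale.Agent.P167.H135.Z.Ext
import Vale.Agent.P167.H945.Q.TLoc
import Vale.Agent.P167.H704.S.Half
import Vale.Agent.P167.H469.LArm

/-!
# P167, general `q`, Q-NORM: the half annulus at a junction, probabilities

`(H1)` `h1_ge`: no crossing of the half annulus by the other colour, `(H2)` `h2_ge`: a crossing of a
rectangle of the side, `(CF)` `cond_fkg`: conditional positive association, `ext_ge`: extension of an
arm, conditionally on the squares near the junction.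
-/

namespace Vale.Agent.P167.H135.Z

open Finset Relation Vale.Agent.P167.FK Vale.Agent.P167.FKA
open Vale.Agent.P145.FB (PStep PConn)
open Vale.Agent.P167.H259 (f_markov)
open Vale.Agent.P167.H632 (IncC cs pr nm_le le_nm cs_compl NoX an)
open Vale.Agent.P153.Topo (Rect mem_rect)
open Vale.Agent.P167.H166N (Hs Qs)
open Vale.Agent.P167.H469 (Ks CP inc_CP)
open Vale.Agent.P167.H704 (Hc Vc cut2)
open Vale.Agent.P167.H704.Q (rs_fk prC_inter)
open Vale.Agent.P167.H704.S (NH nh_ge pr_not')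
open Vale.Agent.P167.H825.Q (Row)

variable {Q : ℝ} {D A : Finset (ℤ × ℤ)} {η ω : Cfg} {r : Row} {b e : Bool} {m m' d s R : ℤ}
  {u v w : ℤ × ℤ}

/-- The direction of the side `b` of the row. -/
def rd (r : Row) (b : Bool) : Fin 4 := if r.o then (if b then 2 else 0) else (if b then 1 else 3)

theorem sd_qs : Sd r b v ↔ v ∈ Qs (rd r b) (pc r b) := by
  unfold Sd rd pc st
  rcases hr : r.o <;> cases b <;> simp [Qs] <;> omega

theorem stp_hs (h1 : v.1 = u.1 + 1 ∨ v.1 = u.1 - 1) (h2 : v.2 = u.2 + 1 ∨ v.2 = u.2 - 1)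
    (h3 : Sd r b (min u.1 v.1, min u.2 v.2)) :
    u ∈ Hs (rd r b) (pc r b) ∧ v ∈ Hs (rd r b) (pc r b) := by
  revert h3
  unfold Sd rd pc st
  rcases hr : r.o <;> cases b <;> simp [Hs] <;> omega

theorem nm_stp {F : Set (ℤ × ℤ)} {p : ℤ × ℤ} (h : PStep F u v) : nm (v - p) ≤ nm (u - p) + 1 := by
  obtain ⟨h1, h2, -⟩ := h
  have h3 := nm_le.1 (le_refl (nm (u - p)))
  rw [nm_le]
  simp only [Prod.fst_sub, Prod.snd_sub] at h3 ⊢
  omega

/-- A path in the squares of the side, as a path in the closed half plane. -/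
theorem pc_side {c : Bool} (hA : ∀ v ∈ A, Sd r b v)
    (h : ReflTransGen (PStep {w | ω w = c ∧ w ∈ A}) u v) (hne : u ≠ v) :
    PConn (cs c ω) (Hs (rd r b) (pc r b)) u v := by
  have key : ∀ x, ReflTransGen (PStep {w | ω w = c ∧ w ∈ A}) u x → u ≠ x →
      u ∈ Hs (rd r b) (pc r b) := by
    intro x h hne
    rcases ReflTransGen.cases_head h with h1 | ⟨y, h1, -⟩
    · exact absurd h1 hne
    · exact (stp_hs h1.1 h1.2.1 (hA _ h1.2.2.2)).1
  refine ⟨key v h hne, ?_⟩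
  clear hne
  induction h with
  | refl => exact ReflTransGen.refl
  | @tail x y hx hxy ih =>
    exact ih.tail ⟨⟨hxy.1, hxy.2.1, hxy.2.2.1⟩, (stp_hs hxy.1 hxy.2.1 (hA _ hxy.2.2.2)).2⟩

theorem nh_sub (hA : ∀ v ∈ A, Sd r b v) (hm : m < m') :
    NH e (rd r b) (pc r b) m m' ⊆ {ω | ω ∉ CP (!e) A (pc r b) m m'} := by
  rintro ω hω ⟨u, v, h1, h2, h3, h4⟩
  have hne : u ≠ v := by
    rintro rfl
    omega
  obtain ⟨z, z', k1, k2, k3, k4, -⟩ := cut2 (fun w => nm (w - pc r b)) (fun _ _ h => nm_stp h)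
    hm.le (pc_side hA h4 hne) h2 h3
  refine hω z z' ?_ k1 k2 ?_
  · rw [← pr_not', ← h1]
    exact k3.parity.symm
  · rw [cs_compl]
    exact k4

theorem inc_nCP {x : ℤ × ℤ} : IncC e {ω | ω ∉ CP (!e) A x m m'} := by
  have := (inc_CP (e := !e) (A := A) (x := x) (r := m) (R := m')).compl
  rwa [Bool.not_not] at this

/-- **(H1)** -/
theorem h1_ge (C : Ks Q) (hm : 1 ≤ m) (hm' : C.Λ * m ≤ m') (hη : Good η) (hA : ∀ v ∈ A, Sd r b v)
    (hD : ∀ v ∈ Bq (pc r b) m', v ∉ Bq (pc r b) m → Sd r b v → v ∈ D) :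
    C.c0 ≤ Pr Q D η {ω | ω ∉ CP (!e) A (pc r b) m m'} := by
  have hΛ := C.hΛ
  have h1 : m < m' := by nlinarith
  exact (nh_ge C (rd r b) hm hm' hη fun v h1 h2 h3 => hD v h1 h2 (sd_qs.2 h3)).trans
    (Pr_mono C.hQ0 (nh_sub hA h1))

/-! ### rectangles -/

/-- The squares of the rectangle of width `2 d` and depth from `s` to `R` on the side `b`. -/
noncomputable def Cor (r : Row) (b : Bool) (d s R : ℤ) : Finset (ℤ × ℤ) :=
  if r.o then Ico ((pc r b).1 - d) ((pc r b).1 + d) ×ˢ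
    (if b then Ico ((pc r b).2 + s) ((pc r b).2 + R) else Ico ((pc r b).2 - R) ((pc r b).2 - s))
  else (if b then Ico ((pc r b).1 + s) ((pc r b).1 + R) else
    Ico ((pc r b).1 - R) ((pc r b).1 - s)) ×ˢ Ico ((pc r b).2 - d) ((pc r b).2 + d)

theorem Cor_sd (hs : 0 ≤ s) (hv : v ∈ Cor r b d s R) : Sd r b v := by
  rw [sd_qs]
  revert hv
  unfold Cor rd
  rcases hr : r.o <;> cases b <;> simp [Qs] <;> omega

theorem Cor_bq (hs : d ≤ s) (hs' : 0 ≤ s) (hsR : s ≤ R) (hv : v ∈ Cor r b d s R) :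
    v ∈ Bq (pc r b) R := by
  revert hv
  unfold Cor Bq
  rcases hr : r.o <;> cases b <;> simp <;> omega

/-- **(H2)** -/
theorem h2_ge (hQ : 1 ≤ Q) (h : RSW Q) (K : ℕ) : ∃ (c : ℝ) (s0 : ℤ), 0 < c ∧ c ≤ 1 ∧ 1 ≤ s0 ∧
    ∀ (r : Row) (b e : Bool) (d s R : ℤ) (D : Finset (ℤ × ℤ)) (η : Cfg), Good η → s0 ≤ d → d ≤ s →
    s < R → R ≤ K * d → (∀ v ∈ Bq (pc r b) (R + d), v ∉ Bq (pc r b) (s - d) → Sd r b v → v ∉ D →
      η v = e) → c ≤ Pr Q D η (CP e (Cor r b d s R) (pc r b) s R) := by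
  have hQ0 : 0 < Q := by linarith
  obtain ⟨c, s0, hc, hc1, hs0, H⟩ := rs_fk hQ h K
  refine ⟨c, s0, hc, hc1, hs0, fun r b e d s R D η hη hd hs hsR hK hD => ?_⟩
  have path : ∀ {x0 x1 y0 y1 : ℤ} {u v : ℤ × ℤ} {ω : Cfg}, PConn (cs e ω) (Rect x0 x1 y0 y1) u v →
      (∀ w : ℤ × ℤ, x0 ≤ w.1 → w.1 < x1 → y0 ≤ w.2 → w.2 < y1 → w ∈ Cor r b d s R) →
      ReflTransGen (PStep {w | ω w = e ∧ w ∈ Cor r b d s R}) u v := by
    intro x0 x1 y0 y1 u v ω h hc
    obtain ⟨k1, k2⟩ := h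
    induction k2 with
    | refl => exact ReflTransGen.refl
    | @tail x y hx hxy ih =>
      have hxm := (show PConn (cs e ω) (Rect x0 x1 y0 y1) u x from ⟨k1, hx⟩).right_mem
      have hym := hxy.2
      rw [mem_rect] at hxm hym
      obtain ⟨⟨p1, p2, p3⟩, -⟩ := hxy
      refine ih.tail ⟨p1, p2, p3, hc _ ?_ ?_ ?_ ?_⟩ <;> dsimp only <;> omega
  have hD' : ∀ v ∈ Bq (pc r b) (R + d), v ∉ Bq (pc r b) (s - d) → v ∈ Qs (rd r b) (pc r b) →
      v ∉ D → η v = e := fun v h1 h2 h3 h4 => hD v h1 h2 (sd_qs.2 h3) h4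
  obtain ⟨p, hp⟩ : ∃ p, p = pc r b := ⟨_, rfl⟩
  have hK' : R - s ≤ K * (2 * d) := by
    have : (0 : ℤ) ≤ K * d := by omega
    nlinarith
  rcases hr : r.o <;> rcases hb : b <;> subst hb
  · refine ((H e (p.1 - R) (p.1 - s) (p.2 - d) (p.2 + d) D η hη (by omega) (by omega)).1
      (by omega) (by rw [show p.2 + d - (p.2 - d) = 2 * d by ring]; omega) ?_).trans
      (Pr_mono hQ0 ?_)
    · intro v h1 h2 h3 h4 h5
      refine hD' v ?_ ?_ ?_ h5
      · rw [H167.Q.mem_Bq, ← hp]; omega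
      · rw [H167.Q.mem_Bq, ← hp]; omega
      · simp only [rd, hr, Qs, ← hp]
        show v.1 < p.1
        omega
    · rintro ω ⟨x, y, h1, h2, h3, h4⟩
      have h5 := h4.right_mem
      rw [mem_rect] at h5
      refine ⟨y, x, by rw [← h3]; exact h4.parity.symm, ?_, ?_, rc_symm (path h4 ?_)⟩
      · rw [← hp, nm_le]
        simp only [Prod.fst_sub, Prod.snd_sub]
        omega
      · rw [← hp, le_nm]
        simp only [Prod.fst_sub, Prod.snd_sub]
        omega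
      · intro w h5 h6 h7 h8
        simp [Cor, hr, ← hp]
        omega
  · refine ((H e (p.1 + s) (p.1 + R) (p.2 - d) (p.2 + d) D η hη (by omega) (by omega)).1
      (by omega) (by rw [show p.2 + d - (p.2 - d) = 2 * d by ring]; omega) ?_).trans
      (Pr_mono hQ0 ?_)
    · intro v h1 h2 h3 h4 h5
      refine hD' v ?_ ?_ ?_ h5
      · rw [H167.Q.mem_Bq, ← hp]; omega
      · rw [H167.Q.mem_Bq, ← hp]; omega
      · simp only [rd, hr, Qs, ← hp]
        show p.1 ≤ v.1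
        omega
    · rintro ω ⟨x, y, h1, h2, h3, h4⟩
      have h5 := h4.left_mem
      rw [mem_rect] at h5
      refine ⟨x, y, h3, ?_, ?_, path h4 ?_⟩
      · rw [← hp, nm_le]
        simp only [Prod.fst_sub, Prod.snd_sub]
        omega
      · rw [← hp, le_nm]
        simp only [Prod.fst_sub, Prod.snd_sub]
        omega
      · intro w h5 h6 h7 h8
        simp [Cor, hr, ← hp]
        omega
  · refine ((H e (p.1 - d) (p.1 + d) (p.2 - R) (p.2 - s) D η hη (by omega) (by omega)).2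
      (by omega) (by rw [show p.1 + d - (p.1 - d) = 2 * d by ring]; omega) ?_).trans
      (Pr_mono hQ0 ?_)
    · intro v h1 h2 h3 h4 h5
      refine hD' v ?_ ?_ ?_ h5
      · rw [H167.Q.mem_Bq, ← hp]; omega
      · rw [H167.Q.mem_Bq, ← hp]; omega
      · simp only [rd, hr, Qs, ← hp]
        show v.2 < p.2
        omega
    · rintro ω ⟨x, y, h1, h2, h3, h4⟩
      have h5 := h4.right_mem
      rw [mem_rect] at h5
      refine ⟨y, x, by rw [← h3]; exact h4.parity.symm, ?_, ?_, rc_symm (path h4 ?_)⟩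
      · rw [← hp, nm_le]
        simp only [Prod.fst_sub, Prod.snd_sub]
        omega
      · rw [← hp, le_nm]
        simp only [Prod.fst_sub, Prod.snd_sub]
        omega
      · intro w h5 h6 h7 h8
        simp [Cor, hr, ← hp]
        omega
  · refine ((H e (p.1 - d) (p.1 + d) (p.2 + s) (p.2 + R) D η hη (by omega) (by omega)).2
      (by omega) (by rw [show p.1 + d - (p.1 - d) = 2 * d by ring]; omega) ?_).trans
      (Pr_mono hQ0 ?_)
    · intro v h1 h2 h3 h4 h5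
      refine hD' v ?_ ?_ ?_ h5
      · rw [H167.Q.mem_Bq, ← hp]; omega
      · rw [H167.Q.mem_Bq, ← hp]; omega
      · simp only [rd, hr, Qs, ← hp]
        show p.2 ≤ v.2
        omega
    · rintro ω ⟨x, y, h1, h2, h3, h4⟩
      have h5 := h4.left_mem
      rw [mem_rect] at h5
      refine ⟨x, y, h3, ?_, ?_, path h4 ?_⟩
      · rw [← hp, nm_le]
        simp only [Prod.fst_sub, Prod.snd_sub]
        omega
      · rw [← hp, le_nm]
        simp only [Prod.fst_sub, Prod.snd_sub]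
        omega
      · intro w h5 h6 h7 h8
        simp [Cor, hr, ← hp]
        omega

/-! ### conditional positive association -/

/-- **(CF)** Conditionally on the squares off `B`. -/
theorem cond_fkg (hQ : 1 ≤ Q) (hη : Good η) {B : Finset (ℤ × ℤ)} (hB : B ⊆ D) {G : Cfg → ℝ}
    (hG : Ind B G) (hG0 : ∀ ω, 0 ≤ G ω) {E F : Set Cfg} (hE : IncC e E) (hF : IncC e F) {c : ℝ}
    (h : ∀ ω, Good ω → (∀ v, v ∉ D → ω v = η v) → c ≤ Pr Q B ω F) :
    c * Ex Q D η (fun ω => G ω * E.indicator 1 ω) ≤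
      Ex Q D η (fun ω => G ω * (E ∩ F).indicator 1 ω) := by
  have hQ0 : 0 < Q := by linarith
  rw [markov f_markov hQ0 hB hη hG (F := E.indicator 1),
    markov f_markov hQ0 hB hη hG (F := (E ∩ F).indicator 1), ← Ex_mul_left]
  refine Ex_mono hQ0 fun S _ => ?_
  have g := f_good.1 D η S hη
  have h1 := prC_inter (Q := Q) (D := B) hQ g hE hF
  have h2 := h _ g fun v hv => cf_out hv
  have h3 : 0 ≤ Pr Q B (cf D η S) E := Pr_nonneg hQ0 _
  have h4 : c * Pr Q B (cf D η S) E ≤ Pr Q B (cf D η S) (E ∩ F) :=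
    (mul_le_mul_of_nonneg_right h2 h3).trans ((mul_comm _ _).le.trans h1)
  calc c * (G (cf D η S) * Pr Q B (cf D η S) E)
      = G (cf D η S) * (c * Pr Q B (cf D η S) E) := by ring
    _ ≤ G (cf D η S) * Pr Q B (cf D η S) (E ∩ F) := mul_le_mul_of_nonneg_left h4 (hG0 _)

/-- Without conditioning. -/
theorem pr_fkg (hQ : 1 ≤ Q) (hη : Good η) {E F : Set Cfg} (hE : IncC e E) (hF : IncC e F) {c : ℝ}
    (h : c ≤ Pr Q D η F) : c * Pr Q D η E ≤ Pr Q D η (E ∩ F) :=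
  (mul_le_mul_of_nonneg_right h (Pr_nonneg (by linarith) _)).trans
    ((mul_comm _ _).le.trans (prC_inter hQ hη hE hF))

/-! ### extension of arms -/

theorem inc_AR {z : ℤ × ℤ} : IncC e (AR r b e A z R) := by
  rintro ω ω' h ⟨z', h1, h2⟩
  refine ⟨z', h1, ?_⟩
  clear h1
  induction h2 with
  | refl => exact ReflTransGen.refl
  | tail _ h3 ih => exact ih.tail ⟨h3.1, h3.2.1, h _ h3.2.2.1, h3.2.2.2⟩

theorem ov_congr {c : Bool} {t : ℕ} {ω' : Cfg} (h : ∀ v ∈ bxJ r R, ω v = ω' v) :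
    ov r b c t R ω = ov r b c t R ω' := by
  unfold ov
  split_ifs
  · exact H945.Q.lrs_congr h
  · exact H945.Q.lrs_congr h

theorem loc_E1 {c : Bool} {x : Ed} : Loc (bxJ r s) ((E1 r b c x s).indicator 1) := by
  intro ω ω' h
  have h1 : ω ∈ E1 r b c x s ↔ ω' ∈ E1 r b c x s := by
    unfold E1
    rw [Set.mem_ofPred_eq, Set.mem_ofPred_eq, ov_congr h, ov_congr h]
  by_cases h2 : ω ∈ E1 r b c x s
  · rw [Set.indicator_of_mem h2, Set.indicator_of_mem (h1.1 h2)]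
    rfl
  · rw [Set.indicator_of_notMem h2, Set.indicator_of_notMem (fun h3 => h2 (h1.2 h3))]

theorem bxJ_sub : bxJ r s ⊆ Bq (pc r b) (s + 1) := by
  intro v hv
  rw [mem_bxJ] at hv
  rw [H167.Q.mem_Bq]
  unfold pc st
  rcases hr : r.o <;> simp only [hr, if_true, if_false, Bool.false_eq_true] at hv ⊢ <;>
    cases b <;> simp only [if_true, if_false, Bool.false_eq_true] <;> omega

/-- **Extension of an arm**, conditionally on the squares off `B`. -/
theorem ext_ge (C : Ks Q) (hR : RSW Q) (K : ℕ) : ∃ (c : ℝ) (d0 : ℤ), 0 < c ∧ c ≤ 1 ∧ 1 ≤ d0 ∧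
    ∀ (r : Row) (b f : Bool) (d R R1 : ℤ) (t : ℕ) (D B A' : Finset (ℤ × ℤ)) (η : Cfg)
      (G : Cfg → ℝ), Gd r R1 → d0 ≤ d → C.Λ * (2 * d + 1) + 1 ≤ R → R ≤ R1 → R1 ≤ K * d →
      (r.k0 : ℤ) - 2 * d ≤ t → (t : ℤ) ≤ r.k0 + 2 * d → ((st r b t).1 + (st r b t).2) % 2 = pr f →
      (∀ v ∈ A', Sd r b v) → Good η → B ⊆ D → Ind B G → (∀ ω, 0 ≤ G ω) →
      (∀ v ∈ Bq (pc r b) (R1 + d), v ∉ Bq (pc r b) d → Sd r b v → v ∈ B) →
      c * Ex Q D η (fun ω => G ω * (AR r b f A' (st r b t) R).indicator 1 ω) ≤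
        Ex Q D η (fun ω => G ω * (AR r b f (Db r b R1) (st r b t) (R1 - 1)).indicator 1 ω) := by
  have hQ0 := C.hQ0
  have hΛ := C.hΛ
  have hc0 := C.hc0
  obtain ⟨c, d0, hc, hc1, hd0, H⟩ := h2_ge C.hQ hR K
  have hc01 : C.c0 ≤ 1 := by
    have h1 := C.half true (0, 0) 1 le_rfl
    have h2 : 0 ≤ H192.Q.pX Q true (0, 0) 1 (C.Λ * 1) := Pr_nonneg hQ0 _
    linarith
  refine ⟨C.c0 * c, d0, by positivity, mul_le_one₀ hc01 hc.le hc1, hd0, ?_⟩
  intro r b f d R R1 t D B A' η G hG hd hR1 hRR hK ht1 ht2 hp hA' hη hB hGI hG0 hsq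
  have e1 : C.Λ * (2 * d + 1) ≥ 2 * (2 * d + 1) := by nlinarith
  have hN : IncC f {ω | ω ∉ CP (!f) (Db r b R1) (pc r b) (2 * d + 1) (R - 1)} := inc_nCP
  have hC : IncC f (CP f (Cor r b d (2 * d) R1) (pc r b) (2 * d) R1) := inc_CP
  refine (cond_fkg (e := f) C.hQ hη hB hGI hG0 inc_AR (hN.inter hC) (c := C.c0 * c) ?_).trans ?_
  · intro ω hω _
    have h1 := h1_ge (Q := Q) (D := B) (η := ω) (r := r) (b := b) (e := f) (A := Db r b R1)
      (m := 2 * d + 1) (m' := R - 1) C (by omega) (by omega) hω (fun v hv => (mem_Db.1 hv).2)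
      (fun v h1 h2 h3 => hsq v (by rw [H167.Q.mem_Bq] at h1 ⊢; omega)
        (by rw [H167.Q.mem_Bq] at h2 ⊢; omega) h3)
    have h2 := H r b f d (2 * d) R1 B ω hω hd (by omega) (by omega) hK (fun v h1 h2 h3 h4 =>
      absurd (hsq v h1 (by rw [H167.Q.mem_Bq] at h2 ⊢; omega) h3) h4)
    refine le_trans ?_ (prC_inter C.hQ hω hN hC)
    exact mul_le_mul h1 h2 hc.le (Pr_nonneg hQ0 _)
  · refine Ex_mono hQ0 fun S _ => mul_le_mul_of_nonneg_left ?_ (hG0 _)
    refine H519.ind_le_of_imp fun h => ?_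
    obtain ⟨h1, h2, h3⟩ := h
    exact arm_ext hG (by omega) (le_refl (2 * d + 1)) (by omega) hRR (by omega) ht1 ht2 hp
      (fun v hv => Cor_sd (by omega) hv) hA' h1 h2 h3

end Vale.Agent.P167.H135.Z
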