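import Vale.Agent.P167.H135.Z.Str
import Vale.Agent.P167.H562.MAJ3

/-!
# P167, general `q`, Q-NORM: the sides of the strands over a site of a face
-/

namespace Vale.Agent.P167.H135.Z

open Finset Relation
open Vale.Agent.P167.BR
open Vale.Agent.P167.Top
open Vale.Agent.P167.XDL (bS mem_bS)
open Vale.Agent.P167.H199 (strand ret Returns mem_strand)
open Vale.Agent.P167.QX (exc mem_exc exc_last exc_ni exc_nx exc_disj ExtPot out_stays)
open Vale.Agent.P145.FB (PStep)
open Vale.Agent.P167.H632 (pr cs)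
open Vale.Agent.P167.H825.Q (Row)
open Vale.Agent.P167.H945.Q (face faces lrs)
open Vale.Agent.P167.H871.Q
open Vale.Agent.P167.H871
open Vale.Agent.P167.H562.MAJ (rect mem_rect mem_sites_rect econ_rect)

variable {r : Row} {b c : Bool} {ω : Cfg} {R s : ℤ} {t k i j : ℕ} {e x : Ed} {v z : ℤ × ℤ}
  {φ : ℤ × ℤ → ℤ}

/-! ### faces -/

/-- The outer square at the face. -/
def osq (r : Row) (b : Bool) (k : ℤ) : ℤ × ℤ :=
  if r.o then (r.x.1 + k, if b then r.x.2 + 1 else r.x.2 - 1)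
  else (if b then r.x.1 + 1 else r.x.1 - 1, r.x.2 + k)

theorem face_sq (r : Row) (b : Bool) (i : ℕ) :
    (hdv (face r b i) = r.sq i ∧ tlv (face r b i) = osq r b i) ∨
      (hdv (face r b i) = osq r b i ∧ tlv (face r b i) = r.sq i) := by
  unfold face osq Row.sq
  by_cases ho : r.o = true <;> cases b <;> simp only [ho, if_true, if_false, Bool.false_eq_true]
  · by_cases h : Even (r.x.1 + i + (r.x.2 - 1)) <;> simp [hdv, tlv, h]
  · by_cases h : Even (r.x.1 + i + r.x.2) <;> simp [hdv, tlv, h]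
  · by_cases h : Even (r.x.1 - 1 + (r.x.2 + i)) <;> simp [hdv, tlv, h]
  · by_cases h : Even (r.x.1 + (r.x.2 + i)) <;> simp [hdv, tlv, h]

theorem face_st (r : Row) (b : Bool) (i : ℕ) :
    (ls (face r b i) = st r b i ∧ rs (face r b i) = st r b (i + 1)) ∨
      (ls (face r b i) = st r b (i + 1) ∧ rs (face r b i) = st r b i) := by
  unfold face st Row.sq
  by_cases ho : r.o = true <;> cases b <;> simp only [ho, if_true, if_false, Bool.false_eq_true]
  · by_cases h : Even (r.x.1 + i + (r.x.2 - 1))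
    · simp [ls, rs, h, ← add_assoc]
    · simp [ls, rs, h, ← add_assoc]
  · by_cases h : Even (r.x.1 + i + r.x.2)
    · simp [ls, rs, h, ← add_assoc]
    · simp [ls, rs, h, ← add_assoc]
  · simp only [ls, rs, ← add_assoc, sub_add_cancel]
    by_cases h : Even (r.x.1 - 1 + r.x.2 + i) <;> simp [h]
  · simp only [ls, rs, ← add_assoc]
    by_cases h : Even (r.x.1 + r.x.2 + i) <;> simp [h]

theorem sd_face (r : Row) (b : Bool) (i : ℕ) (c : Bool) :
    (sd c (face r b i) = st r b i ∧ sd (!c) (face r b i) = st r b (i + 1)) ∨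
      (sd c (face r b i) = st r b (i + 1) ∧ sd (!c) (face r b i) = st r b i) := by
  unfold sd
  rcases face_st r b i with ⟨h1, h2⟩ | ⟨h1, h2⟩ <;> cases c <;> simp [h1, h2]

theorem sd_par (c : Bool) (x : Ed) : ((sd c x).1 + (sd c x).2) % 2 = pr c := by
  unfold sd
  cases c
  · have := odd_rs x
    rw [Int.even_iff] at this
    simp only [pr, Bool.false_eq_true, if_false]
    omega
  · have := even_ls x
    rw [Int.even_iff] at this
    simp only [pr, if_true]
    exact this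

theorem sd_isC (c : Bool) (x : Ed) : IsC (hdv x) (sd c x) ∧ IsC (tlv x) (sd c x) := by
  obtain ⟨⟨h1, h2⟩, h3, h4⟩ := isC_ends x
  unfold sd
  cases c
  · exact ⟨h2, h4⟩
  · exact ⟨h1, h3⟩

/-! ### membership -/

theorem mem_ov (ht : t ≤ r.L) : e ∈ ov r b c t R ω ↔ ∃ i j : ℕ, i < r.L ∧ j < r.L ∧
    e = face r b i ∧ (nx ω)^[ret (nx ω) (bS r.I) e] e = face r b j ∧ hdv e ∉ r.I ∧ tlv e ∈ r.I ∧
    Returns (nx ω) (bS r.I) e ∧ Stays r.I (bxJ r R : Set (ℤ × ℤ)) ω e ∧
    ((c = decide (r.o = b) ∧ i < t ∧ t ≤ j) ∨ (c ≠ decide (r.o = b) ∧ j < t ∧ t ≤ i)) := by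
  unfold ov
  constructor
  · intro he
    by_cases hc : c = decide (r.o = b)
    · rw [if_pos hc, lrs_eq] at he
      obtain ⟨h1, ⟨h2, h2'⟩, h3, h4, h5⟩ := mem_lr.1 he
      unfold faces at h1 h4
      obtain ⟨i0, h6, h7⟩ := mem_image.1 h1
      obtain ⟨j0, h8, h9⟩ := mem_image.1 h4
      rw [mem_Ico] at h6 h8
      exact ⟨i0, j0, by omega, by omega, h7.symm, h9.symm, h2, h2', h3, h5,
        Or.inl ⟨hc, by omega, by omega⟩⟩
    · rw [if_neg hc, lrs_eq] at he
      obtain ⟨h1, ⟨h2, h2'⟩, h3, h4, h5⟩ := mem_lr.1 he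
      unfold faces at h1 h4
      obtain ⟨i0, h6, h7⟩ := mem_image.1 h1
      obtain ⟨j0, h8, h9⟩ := mem_image.1 h4
      rw [mem_Ico] at h6 h8
      exact ⟨i0, j0, by omega, by omega, h7.symm, h9.symm, h2, h2', h3, h5,
        Or.inr ⟨hc, by omega, by omega⟩⟩
  · rintro ⟨i, j, hi, hj, h1, h2, h3, h4, h5, h6, ⟨h7, h8, h9⟩ | ⟨h7, h8, h9⟩⟩
    · rw [if_pos h7, lrs_eq]
      exact mem_lr.2 ⟨by rw [h1]; exact mem_image_of_mem _ (mem_Ico.2 ⟨Nat.zero_le _, h8⟩),
        ⟨h3, h4⟩, h5, by rw [h2]; exact mem_image_of_mem _ (mem_Ico.2 ⟨h9, hj⟩), h6⟩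
    · rw [if_neg h7, lrs_eq]
      exact mem_lr.2 ⟨by rw [h1]; exact mem_image_of_mem _ (mem_Ico.2 ⟨h9, hi⟩),
        ⟨h3, h4⟩, h5, by rw [h2]; exact mem_image_of_mem _ (mem_Ico.2 ⟨Nat.zero_le _, h8⟩), h6⟩

theorem SP1.mem (P : SP1 r b c t R ω e i j φ) (ht : t ≤ r.L) : e ∈ ov r b c t R ω :=
  (mem_ov ht).2 ⟨i, j, P.hi, P.hj, P.fi, P.fj, P.ou, P.tl, P.rt, P.sy, P.dir⟩

theorem SP1.min_lt (P : SP1 r b c t R ω e i j φ) : min i j < t ∧ t ≤ max i j := by
  rcases P.dir with h | h <;> omega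

/-- The same strand over another site between its feet. -/
theorem SP1.move (P : SP1 r b c t R ω e i j φ) {t' : ℕ} (h1 : min i j < t') (h2 : t' ≤ max i j) :
    SP1 r b c t' R ω e i j φ :=
  { P with dir := by rcases P.dir with ⟨h, h3, h4⟩ | ⟨h, h3, h4⟩
                     · exact Or.inl ⟨h, by omega, by omega⟩
                     · exact Or.inr ⟨h, by omega, by omega⟩ }

/-! ### the side of the row -/

theorem sd_osq (r : Row) (b : Bool) (k : ℤ) : Sd r b (osq r b k) := by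
  unfold Sd osq
  by_cases ho : r.o = true <;> cases b <;> simp [ho]

/-- The strand stays on its side. -/
theorem SP1.side (P : SP1 r b c t R ω e i j φ) (h : Gd r R) :
    ∀ k < ret (nx ω) (bS r.I) e, Sd r b (hdv ((nx ω)^[k] e)) := by
  have h2 := h.h2
  have hlo := h.lo
  have hhi := h.hi
  have h0 : hdv e = osq r b i := by
    rcases face_sq r b i with ⟨h1, h2⟩ | ⟨h1, h2⟩
    · exfalso
      apply P.ou
      rw [P.fi, h1]
      unfold Row.I
      exact mem_image_of_mem _ (mem_range.2 P.hi)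
    · rw [P.fi, h1]
  intro k
  induction k with
  | zero =>
    intro _
    rw [Function.iterate_zero, id, h0]
    exact sd_osq _ _ _
  | succ k ih =>
    intro hk
    have h3 := ih (by omega)
    have h4 := out_stays P.ou (show k + 1 < ret (nx ω) (bS r.I) e from hk)
    have h5 := P.sy (k + 1) hk
    rw [mem_coe] at h5
    have h6 := adj_sq ((nx ω)^[k + 1] e)
    have h7 : tlv ((nx ω)^[k + 1] e) = hdv ((nx ω)^[k] e) := by
      rw [Function.iterate_succ_apply', tlv_nx]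
    rw [h7] at h6
    generalize hdv ((nx ω)^[k] e) = v at h3 h6
    generalize hdv ((nx ω)^[k + 1] e) = w at h4 h5 h6
    rw [mem_bxJ] at h5
    rw [mem_rI] at h4
    unfold Sd at h3 ⊢
    by_cases ho : r.o = true <;> cases b <;>
      simp only [ho, if_true, if_false, Bool.false_eq_true] at h3 h4 h5 ⊢ <;> omega

theorem mem_Db : v ∈ Db r b R ↔ v ∈ bxJ r R ∧ Sd r b v := by
  unfold Db
  rw [mem_filter]

theorem SP1.mem_Db (P : SP1 r b c t R ω e i j φ) (h : Gd r R) (hk : k < ret (nx ω) (bS r.I) e) :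
    hdv ((nx ω)^[k] e) ∈ Db r b R :=
  Z.mem_Db.2 ⟨mem_coe.1 (P.sy k hk), P.side h k hk⟩

theorem rc_symm {A : Finset (ℤ × ℤ)} {s t : ℤ × ℤ} (h : Rc c A ω s t) : Rc c A ω t s := by
  unfold Rc at h ⊢
  induction h with
  | refl => exact ReflTransGen.refl
  | tail _ h ih => exact ReflTransGen.head h.symm ih

theorem rc_mono {A A' : Finset (ℤ × ℤ)} (hA : A ⊆ A') {s t : ℤ × ℤ} (h : Rc c A ω s t) :
    Rc c A' ω s t := by
  refine ReflTransGen.mono (fun s t h => ?_) _ _ h
  exact ⟨h.1, h.2.1, h.2.2.1, hA h.2.2.2⟩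

theorem sd_nx {A : Finset (ℤ × ℤ)} (x : Ed) (hx : hdv x ∈ A) (c : Bool) :
    Rc c A ω (sd c x) (sd c (nx ω x)) := by
  have key : ∀ {s t : ℤ × ℤ}, (s.1 + s.2) % 2 = pr c → Stp ω A s t → Rc c A ω s t := by
    intro s t hs h
    rw [stp_iff hs] at h
    refine ReflTransGen.single ⟨h.1, h.2.1, ?_, ?_⟩
    · exact h.2.2.1
    · exact mem_coe.1 h.2.2.2
  have hp := sd_par c x
  unfold sd at hp ⊢
  cases c
  · rcases rs_stp (ω := ω) hx with h | h
    · simp only [Bool.false_eq_true, if_false, h]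
      exact ReflTransGen.refl
    · exact key hp h
  · rcases ls_stp (ω := ω) hx with h | h
    · simp only [if_true, h]
      exact ReflTransGen.refl
    · exact key hp h

/-- **The sides of a strand are joined** in both colours. -/
theorem SP1.rc (P : SP1 r b c t R ω e i j φ) (h : Gd r R) (hx : x ∈ exc r.I ω e) (c' : Bool) :
    Rc c' (Db r b R) ω (sd c' e) (sd c' x) := by
  obtain ⟨k, hk, rfl⟩ := mem_exc.1 hx
  clear hx
  induction k with
  | zero => exact ReflTransGen.refl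
  | succ k ih =>
    rw [Function.iterate_succ_apply']
    exact ReflTransGen.trans (ih (by omega)) (sd_nx _ (P.mem_Db h (by omega)) c')

theorem SP1.rc' (P : SP1 r b c t R ω e i j φ) (h : Gd r R) (hx : x ∈ exc r.I ω e) {y : Ed}
    (hy : y ∈ exc r.I ω e) (c' : Bool) : Rc c' (Db r b R) ω (sd c' x) (sd c' y) :=
  ReflTransGen.trans (rc_symm (P.rc h hx c')) (P.rc h hy c')

end Vale.Agent.P167.H135.Z
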