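import Vale.Agent.P167.H135.Z.Pot

/-!
# P167, general `q`, Q-NORM: the potential of a strand over a site of a face
-/

namespace Vale.Agent.P167.H135.Z

open Finset Relation
open Vale.Agent.P167.BR
open Vale.Agent.P167.Top
open Vale.Agent.P167.XDL (bS mem_bS)
open Vale.Agent.P167.H199 (strand ret Returns mem_strand)
open Vale.Agent.P167.QX (exc mem_exc exc_last exc_ni exc_nx exc_disj ExtPot out_stays)
open Vale.Agent.P145.FB (PStep)
open Vale.Agent.P167.H632 (pr cs)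
open Vale.Agent.P167.H825.Q (Row)
open Vale.Agent.P167.H945.Q (face faces lrs)
open Vale.Agent.P167.H871.Q
open Vale.Agent.P167.H871

variable {r : Row} {b c : Bool} {ω : Cfg} {R s : ℤ} {t k : ℕ} {e x : Ed} {v z : ℤ × ℤ}

/-- The box of radius `R` is near the middle of the row. -/
structure Gd (r : Row) (R : ℤ) : Prop where
  h2 : 2 ≤ R
  lo : R + 2 ≤ r.k0
  hi : r.k0 + R + 2 ≤ r.L

theorem Gd.L1 (h : Gd r R) : 1 ≤ r.L := by have := h.h2; have := h.hi; omega

theorem mem_bxJ : v ∈ bxJ r R ↔ if r.o then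
    (r.x.1 + r.k0 - R ≤ v.1 ∧ v.1 < r.x.1 + r.k0 + R ∧ r.x.2 - R < v.2 ∧ v.2 < r.x.2 + R) else
    (r.x.1 - R < v.1 ∧ v.1 < r.x.1 + R ∧ r.x.2 + r.k0 - R ≤ v.2 ∧ v.2 < r.x.2 + r.k0 + R) := by
  unfold bxJ Row.sq
  by_cases h : r.o = true
  · simp only [h, if_true, mem_product, mem_Ico]
    omega
  · simp only [h, if_false, Bool.false_eq_true, mem_product, mem_Ico]
    omega

theorem rays_J (h : Gd r R) : Rays r.I (bxJ r R : Set (ℤ × ℤ)) := by
  have := h.h2
  unfold bxJ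
  by_cases ho : r.o = true
  · rw [if_pos ho]
    apply rays_row
    unfold Row.sq
    simp only [ho, if_true]
    omega
  · rw [if_neg ho]
    apply rays_row
    unfold Row.sq
    simp only [ho, if_false, Bool.false_eq_true]
    omega

theorem w0_J (h : Gd r R) : w0 r b ∉ bxJ r R := by
  have := h.h2; have := h.lo; have := h.hi
  rw [mem_bxJ]
  unfold w0 sqm
  by_cases ho : r.o = true <;> cases hb : b <;> simp [ho] <;> omega

theorem isC_iff {v s : ℤ × ℤ} : IsC v s ↔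
    (s.1 = v.1 ∨ s.1 = v.1 + 1) ∧ (s.2 = v.2 ∨ s.2 = v.2 + 1) := Iff.rfl

/-- The sites of the polygon on the face `b`. -/
theorem rqr_st (hL : 1 ≤ r.L) (hk : k ≤ r.L) : rqr r b (k : ZMod (2 * r.L + 2)) =
    st r b (if r.o = b then (r.L : ℤ) - k else k) := by
  rw [rqr_nat hL, P1_eq (by omega)]
  unfold P0
  rw [if_pos hk]
  unfold Ls fz0 fd st
  cases hb : b <;> by_cases h : r.o = true <;> simp [h, dx, dy]
  all_goals ring

theorem far_corner (h : Gd r R) (hz : R ≤ nm (z - pc r b)) : ∃ v ∉ bxJ r R, IsC v z := by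
  have := h.h2
  change R ≤ max |z.1 - (pc r b).1| |z.2 - (pc r b).2| at hz
  rw [le_max_iff, le_abs, le_abs] at hz
  unfold pc st at hz
  simp only [mem_bxJ]
  by_cases ho : r.o = true
  · simp only [ho, if_true] at hz ⊢
    rcases hz with (hz | hz) | hz | hz
    · exact ⟨(z.1, z.2), by dsimp only; omega, Or.inl rfl, Or.inl rfl⟩
    · exact ⟨(z.1 - 1, z.2), by dsimp only; omega, Or.inr (by ring), Or.inl rfl⟩
    · exact ⟨(z.1, z.2), by dsimp only; split_ifs at hz <;> omega, Or.inl rfl, Or.inl rfl⟩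
    · exact ⟨(z.1, z.2 - 1), by dsimp only; split_ifs at hz <;> omega, Or.inl rfl, Or.inr (by ring)⟩
  · simp only [ho, if_false, Bool.false_eq_true] at hz ⊢
    rcases hz with (hz | hz) | hz | hz
    · exact ⟨(z.1, z.2), by dsimp only; split_ifs at hz <;> omega, Or.inl rfl, Or.inl rfl⟩
    · exact ⟨(z.1 - 1, z.2), by dsimp only; split_ifs at hz <;> omega, Or.inr (by ring), Or.inl rfl⟩
    · exact ⟨(z.1, z.2), by dsimp only; omega, Or.inl rfl, Or.inl rfl⟩
    · exact ⟨(z.1, z.2 - 1), by dsimp only; omega, Or.inl rfl, Or.inr (by ring)⟩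

/-- **The potential of a strand over the site `t`.** -/
structure SP1 (r : Row) (b c : Bool) (t : ℕ) (R : ℤ) (ω : Cfg) (e : Ed) (i j : ℕ)
    (φ : ℤ × ℤ → ℤ) : Prop where
  hi : i < r.L
  hj : j < r.L
  fi : e = face r b i
  fj : (nx ω)^[ret (nx ω) (bS r.I) e] e = face r b j
  ou : hdv e ∉ r.I
  tl : tlv e ∈ r.I
  rt : Returns (nx ω) (bS r.I) e
  sy : Stays r.I (bxJ r R) ω e
  dir : (c = decide (r.o = b) ∧ i < t ∧ t ≤ j) ∨ (c ≠ decide (r.o = b) ∧ j < t ∧ t ≤ i)
  pt : Pt ω {v | v ∉ r.I} (exc r.I ω e) φ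
  off : ∀ v ∉ bxJ r R, ∀ z, IsC v z → φ z = 0
  vals : ∀ s : ℕ, s ≤ r.L → (φ (st r b s) ≠ 0 ↔ min i j < s ∧ s ≤ max i j)
  out : ∀ x ∈ exc r.I ω e, φ (sd c x) = 0
  inn : ∀ x ∈ exc r.I ω e, φ (sd (!c) x) ≠ 0

theorem be_inj_face (hL : 1 ≤ r.L) {i : ℕ} (hi : i < 2 * r.L + 2) (hk : k < r.L)
    (h : be (rqr r b) (i : ZMod (2 * r.L + 2)) = face r b k) : i = fk r b k := by
  by_contra hne
  have h3 : fk r b k < r.L := by unfold fk; split_ifs <;> omega
  have h4 : fk r b (fk r b k) = k := by unfold fk; split_ifs <;> omega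
  refine XDL.be_ne (rqr_polygon (r := r) (b := b) hL) hi (by omega) hne ?_
  rw [h, be_face hL h3, h4]

theorem st_of_fk (hL : 1 ≤ r.L) (hs : k ≤ r.L) : st r b k =
    rqr r b (((if r.o = b then r.L - k else k : ℕ)) : ZMod (2 * r.L + 2)) := by
  rw [rqr_st hL (by split_ifs <;> omega)]
  congr 1
  split_ifs <;> omega

theorem exists_pot (h : Gd r R) (ht : t ≤ r.L) (he : e ∈ ov r b c t R ω) :
    ∃ i j φ, SP1 r b c t R ω e i j φ := by
  have hL := h.L1
  -- the feet
  obtain ⟨i0, j0, hi0, hj0, hfi, hfj, hou, htl, hrt, hsy, hdir⟩ : ∃ i0 j0 : ℕ, i0 < r.L ∧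
      j0 < r.L ∧ e = face r b i0 ∧ (nx ω)^[ret (nx ω) (bS r.I) e] e = face r b j0 ∧ hdv e ∉ r.I ∧
      tlv e ∈ r.I ∧ Returns (nx ω) (bS r.I) e ∧ Stays r.I (bxJ r R : Set (ℤ × ℤ)) ω e ∧
      ((c = decide (r.o = b) ∧ i0 < t ∧ t ≤ j0) ∨ (c ≠ decide (r.o = b) ∧ j0 < t ∧ t ≤ i0)) := by
    unfold ov at he
    by_cases hc : c = decide (r.o = b)
    · rw [if_pos hc, lrs_eq] at he
      obtain ⟨h1, ⟨h2, h2'⟩, h3, h4, h5⟩ := mem_lr.1 he
      unfold faces at h1 h4
      obtain ⟨i0, h6, h7⟩ := mem_image.1 h1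
      obtain ⟨j0, h8, h9⟩ := mem_image.1 h4
      rw [mem_Ico] at h6 h8
      exact ⟨i0, j0, by omega, by omega, h7.symm, h9.symm, h2, h2', h3, h5,
        Or.inl ⟨hc, by omega, by omega⟩⟩
    · rw [if_neg hc, lrs_eq] at he
      obtain ⟨h1, ⟨h2, h2'⟩, h3, h4, h5⟩ := mem_lr.1 he
      unfold faces at h1 h4
      obtain ⟨i0, h6, h7⟩ := mem_image.1 h1
      obtain ⟨j0, h8, h9⟩ := mem_image.1 h4
      rw [mem_Ico] at h6 h8
      exact ⟨i0, j0, by omega, by omega, h7.symm, h9.symm, h2, h2', h3, h5,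
        Or.inr ⟨hc, by omega, by omega⟩⟩
  obtain ⟨i, j, φ, σ, F, hφ, hσ, hv, hoff, -⟩ := row_pot (b := b) hL (rays_J h) (w0_J h) hou htl hrt
    hsy
  have hi := be_inj_face hL F.hi hi0 (F.e1.symm.trans hfi)
  have hj := be_inj_face hL F.hj hj0 (F.e2.symm.trans hfj)
  have f1 : ∀ k, fk r b k = if r.o = b then r.L - 1 - k else k := fun _ => rfl
  have hσc : (c = true ↔ σ = -1) := by
    rw [hσ, hi, hj]
    by_cases ho : r.o = b
    · rw [f1, f1, if_pos ho, if_pos ho]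
      rw [decide_eq_true ho] at hdir
      rcases hdir with ⟨h1, h2, h3⟩ | ⟨h1, h2, h3⟩
      · rw [if_neg (by omega), h1]
        simp
      · rw [if_pos (by omega)]
        cases c
        · simp
        · exact absurd rfl h1
    · rw [f1, f1, if_neg ho, if_neg ho]
      rw [decide_eq_false ho] at hdir
      rcases hdir with ⟨h1, h2, h3⟩ | ⟨h1, h2, h3⟩
      · rw [if_pos (by omega), h1]
        simp
      · rw [if_neg (by omega)]
        cases c
        · exact absurd rfl h1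
        · simp
  refine ⟨i0, j0, φ, hi0, hj0, hfi, hfj, hou, htl, hrt, hsy, hdir, ⟨?_, ?_⟩, ?_, ?_, ?_, ?_⟩
  · intro x hx
    exact (exc_nx hou htl hrt hx).symm
  · intro x hx
    have := hφ.jump x hx
    rw [this]
    congr 1
    by_cases hxe : x ∈ exc r.I ω e
    · rw [if_pos hxe, if_pos (mem_coe.2 hxe)]
    · rw [if_neg hxe, if_neg (fun h => hxe (mem_coe.1 h))]
  · intro v hv z hz
    exact hoff v (fun h => hv (mem_coe.1 h)) z hz
  · intro s hs
    rw [st_of_fk hL hs, hv _ (by split_ifs <;> omega), hi, hj, f1, f1]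
    by_cases ho : r.o = b
    · rw [if_pos ho, if_pos ho, if_pos ho]
      split_ifs <;> omega
    · rw [if_neg ho, if_neg ho, if_neg ho]
      split_ifs <;> omega
  · intro x hx
    unfold sd
    cases c
    · have h1 : σ = 1 := by
        rcases hφ.sgn with h1 | h1
        · exact h1
        · exact absurd (hσc.2 h1) (by simp)
      rw [if_neg (by simp), hφ.right x hx, h1]
      rfl
    · have h1 : σ = -1 := hσc.1 rfl
      rw [if_pos rfl, hφ.left x hx, h1]
      rfl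
  · intro x hx
    unfold sd
    cases c
    · have h1 : σ = 1 := by
        rcases hφ.sgn with h1 | h1
        · exact h1
        · exact absurd (hσc.2 h1) (by simp)
      rw [Bool.not_false, if_pos rfl, hφ.left x hx, h1]
      decide
    · have h1 : σ = -1 := hσc.1 rfl
      rw [Bool.not_true, if_neg (by simp), hφ.right x hx, h1]
      decide

/-- **(L)** An arm excludes the strands over its site. -/
theorem ov_of_arm (h : Gd r R) (ht : t ≤ r.L) {e' : Bool}
    (hp : ((st r b t).1 + (st r b t).2) % 2 = pr e') {A : Finset (ℤ × ℤ)}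
    (hA : ∀ v ∈ A, v ∉ r.I) (hω : ω ∈ AR r b e' A (st r b t) R) (c : Bool) :
    ov r b c t R ω = ∅ := by
  rw [eq_empty_iff_forall_notMem]
  intro e he
  obtain ⟨i, j, φ, P⟩ := exists_pot h ht he
  obtain ⟨z, hz1, hz2⟩ := hω
  obtain ⟨v, hv, hvz⟩ := far_corner h hz1
  have h1 := P.pt.rc (fun v hv => hA v hv) hp hz2
  rw [P.off v hv z hvz] at h1
  have h2 := (P.vals t ht).2 (by rcases P.dir with h | h <;> omega)
  exact h2 h1

end Vale.Agent.P167.H135.Z
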