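import Vale.Agent.P167.H135.Z.Two
import Vale.Agent.P167.H506.Q.Sp5

/-!
# P167, general `q`, Q-NORM: the factors of the junctions in terms of the strands over the junction
-/

namespace Vale.Agent.P167.H135.Z

open Finset Relation
open Vale.Agent.P167.H632 (pr cs)
open Vale.Agent.P167.H825.Q (Row)
open Vale.Agent.P167.H945.Q (face faces lrs jn tj)
open Vale.Agent.P167.H506.Q (TB)

variable {r : Row} {b c f : Bool} {ω : Cfg} {R : ℤ} {θ w w' : ℝ}

theorem bx_jn : (jn θ r b).bx R = bxJ r R := by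
  unfold Vale.Agent.P167.H945.Q.SP.bx jn bxJ
  by_cases ho : r.o = true
  · simp [ho]
  · simp [ho]

theorem ov_dec : ov r b (decide (r.o = b)) r.k0 R ω =
    lrs r.I (faces r b 0 r.k0) (faces r b r.k0 r.L) (bxJ r R) ω := by
  unfold ov
  rw [if_pos rfl]

theorem ov_ndec : ov r b (!decide (r.o = b)) r.k0 R ω =
    lrs r.I (faces r b r.k0 r.L) (faces r b 0 r.k0) (bxJ r R) ω := by
  unfold ov
  rw [if_neg (by simp)]

/-- **The factor of a face.** -/
theorem TB_ov : TB r.I (faces r b 0 r.k0) (faces r b r.k0 r.L) w w' (jn θ r b).bx R ω =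
    w ^ (ov r b (decide (r.o = b)) r.k0 R ω).card *
      w' ^ (ov r b (!decide (r.o = b)) r.k0 R ω).card := by
  rw [ov_dec, ov_ndec]
  unfold TB
  rw [bx_jn]

/-- **Both weights are zero.** -/
theorem TB_zero (h : Gd r R) (hp : ((pc r b).1 + (pc r b).2) % 2 = pr f) :
    TB r.I (faces r b 0 r.k0) (faces r b r.k0 r.L) 0 0 (jn θ r b).bx R ω =
      if ov r b (!f) r.k0 R ω = ∅ then 1 else 0 := by
  have h2 := h.h2
  rw [TB_ov]
  by_cases h0 : ov r b (!f) r.k0 R ω = ∅
  · have h1 := ov_none h (by omega) (by omega) hp h0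
    rw [if_pos h0, h1, h1, card_empty, pow_zero, one_mul]
  · rw [if_neg h0, ← pow_add]
    apply zero_pow
    have h3 : 0 < (ov r b (!f) r.k0 R ω).card := card_pos.2 (nonempty_iff_ne_empty.2 h0)
    rcases Bool.eq_or_eq_not (!f) (decide (r.o = b)) with h4 | h4 <;> rw [h4] at h3 <;> omega

end Vale.Agent.P167.H135.Z
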