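import Vale.Agent.P167.H135.Z.Ext

/-!
# P167, general `q`, Q-NORM: at most one strand over the junction
-/

namespace Vale.Agent.P167.H135.Z

open Finset Relation
open Vale.Agent.P167.BR
open Vale.Agent.P167.Top
open Vale.Agent.P167.XDL (bS mem_bS)
open Vale.Agent.P167.H199 (strand ret Returns mem_strand ret_le ret_min)
open Vale.Agent.P167.QX (exc mem_exc exc_last exc_ni exc_nx exc_disj ExtPot out_stays)
open Vale.Agent.P145.FB (PStep)
open Vale.Agent.P167.H632 (pr cs)
open Vale.Agent.P167.H825.Q (Row)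
open Vale.Agent.P167.H945.Q (face faces lrs)
open Vale.Agent.P167.H871.Q
open Vale.Agent.P167.H871
open Vale.Agent.P167.H469 (CP)

variable {r : Row} {b c f : Bool} {ω : Cfg} {R s : ℤ} {t k i j : ℕ} {e x : Ed}
  {v z : ℤ × ℤ} {D A : Finset (ℤ × ℤ)} {φ : ℤ × ℤ → ℤ}

theorem face_inj (hL : 1 ≤ r.L) {a a' : ℕ} (ha : a < r.L) (ha' : a' < r.L)
    (hh : face r b a = face r b a') : a = a' := by
  have h9 := be_inj_face (b := b) hL (i := fk r b a) (k := a') (by unfold fk; split_ifs <;> omega)
    ha' (by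
      rw [be_face hL (by unfold fk; split_ifs <;> omega)]
      rw [← hh]
      congr 1
      unfold fk; split_ifs <;> omega)
  unfold fk at h9
  split_ifs at h9 <;> omega

theorem SP1.self_mem (P : SP1 r b c t R ω e i j φ) : face r b i ∈ exc r.I ω e := by
  rw [← P.fi]
  exact mem_exc.2 ⟨0, Nat.zero_le _, rfl⟩

theorem SP1.last_mem (P : SP1 r b c t R ω e i j φ) : face r b j ∈ exc r.I ω e := by
  rw [← P.fj]
  exact mem_exc.2 ⟨_, le_rfl, rfl⟩

theorem SP1.lt_L (P : SP1 r b c t R ω e i j φ) : max i j + 1 ≤ r.L := by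
  have := P.hi
  have := P.hj
  omega

/-- The outer sites of the first and the last edge. -/
theorem SP1.outer (P : SP1 r b c t R ω e i j φ) (m : ℕ) (hm : m = i ∨ m = j) :
    sd c (face r b m) = st r b (if m = min i j then (m : ℤ) else m + 1) := by
  have hmm : face r b m ∈ exc r.I ω e := by
    rcases hm with rfl | rfl
    · exact P.self_mem
    · exact P.last_mem
  have h0 := P.out _ hmm
  have hl := P.lt_L
  have hml := P.min_lt
  have v1 := P.vals m (by omega)
  have v2 := P.vals (m + 1) (by omega)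
  push_cast at v2
  rcases sd_face r b m c with ⟨h1, -⟩ | ⟨h1, -⟩
  · rw [h1] at h0 ⊢
    rw [if_pos]
    have : ¬ (min i j < m ∧ m ≤ max i j) := fun h => (v1.2 h) h0
    omega
  · rw [h1] at h0 ⊢
    rw [if_neg]
    have : ¬ (min i j < m + 1 ∧ m + 1 ≤ max i j) := fun h => (v2.2 h) h0
    omega

/-- The two outer sites of a strand are joined. -/
theorem SP1.join (P : SP1 r b c t R ω e i j φ) (h : Gd r R) :
    Rc c (Db r b R) ω (st r b (min i j : ℕ)) (st r b ((max i j : ℕ) + 1)) := by
  have hml := P.min_lt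
  have h1 := P.outer i (Or.inl rfl)
  have h2 := P.outer j (Or.inr rfl)
  have h3 := P.rc' h P.self_mem P.last_mem c
  rw [h1, h2] at h3
  rcases lt_or_ge i j with h4 | h4
  · rw [if_pos (by omega), if_neg (by omega)] at h3
    rw [show min i j = i by omega, show max i j = j by omega]
    exact h3
  · rw [if_neg (by omega), if_pos (by omega)] at h3
    rw [show min i j = j by omega, show max i j = i by omega]
    exact rc_symm h3

theorem SP1.par (P : SP1 r b c t R ω e i j φ) :
    ((st r b (min i j : ℕ)).1 + (st r b (min i j : ℕ)).2) % 2 = pr c := by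
  rcases le_total i j with h4 | h4
  · have h1 := P.outer i (Or.inl rfl)
    rw [if_pos (by omega)] at h1
    rw [show min i j = i by omega, ← h1]
    exact sd_par _ _
  · have h1 := P.outer j (Or.inr rfl)
    rw [if_pos (by omega)] at h1
    rw [show min i j = j by omega, ← h1]
    exact sd_par _ _

/-- The left foot is in the box. -/
theorem SP1.range (P : SP1 r b c t R ω e i j φ) (h : Gd r R) :
    (r.k0 : ℤ) - R ≤ (min i j : ℕ) ∧ ((max i j : ℕ) : ℤ) < r.k0 + R := by
  have h2 := h.h2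
  have key : ∀ m : ℕ, m = i ∨ m = j → (r.k0 : ℤ) - R ≤ m ∧ (m : ℤ) < r.k0 + R := by
    intro m hm
    -- the outer square of the face is in the box
    have hm1 : osq r b m ∈ bxJ r R := by
      rcases hm with rfl | rfl
      · have h3 := P.sy 0 (by have := P.rt.spec.1; omega)
        rw [Function.iterate_zero, id] at h3
        rcases face_sq r b m with ⟨h4, h5⟩ | ⟨h4, h5⟩
        · exfalso
          apply P.ou
          rw [P.fi, h4]
          exact mem_image_of_mem _ (mem_range.2 P.hi)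
        · rw [P.fi, h4] at h3
          exact mem_coe.1 h3
      · have h3 := tl_last P.rt P.sy
        rw [P.fj] at h3
        rcases face_sq r b m with ⟨h4, h5⟩ | ⟨h4, h5⟩
        · rw [h5] at h3
          exact mem_coe.1 h3
        · exfalso
          have h6 := (exc_last P.ou P.rt).2
          rw [P.fj, h5] at h6
          exact h6 (mem_image_of_mem _ (mem_range.2 P.hj))
    rw [mem_bxJ] at hm1
    unfold osq at hm1
    by_cases ho : r.o = true <;> cases b <;>
      simp only [ho, if_true, if_false, Bool.false_eq_true] at hm1 <;> omega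
  rcases le_total i j with h4 | h4
  · rw [show min i j = i by omega, show max i j = j by omega]
    exact ⟨(key i (Or.inl rfl)).1, (key j (Or.inr rfl)).2⟩
  · rw [show min i j = j by omega, show max i j = i by omega]
    exact ⟨(key j (Or.inr rfl)).1, (key i (Or.inl rfl)).2⟩

/-- The outer site of the start is a site of the line. -/
theorem SP1.site (P : SP1 r b c t R ω e i j φ) (h : Gd r R) : ∃ t' : ℕ, sd c e = st r b t' ∧
    (r.k0 : ℤ) - R ≤ t' ∧ (t' : ℤ) ≤ r.k0 + R ∧ t' ≤ r.L ∧ (t' = min i j ∨ t' = max i j + 1) := by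
  have h1 := P.outer i (Or.inl rfl)
  have h2 := P.range h
  have h3 := P.lt_L
  rw [P.fi, h1]
  by_cases h4 : i = min i j
  · exact ⟨i, by rw [if_pos h4], by omega, by omega, by omega, Or.inl h4⟩
  · refine ⟨i + 1, by rw [if_neg h4]; push_cast; rfl, by omega, by omega, by omega, Or.inr (by omega)⟩

/-- The same potential at the two outer sites. -/
theorem SP1.far_eq (P : SP1 r b c t R ω e i j φ) (h : Gd r R) {V : Set (ℤ × ℤ)} {S : Set Ed}
    {u : ℤ × ℤ → ℤ} (hu : Pt ω V S u) (hV : ∀ v ∈ Db r b R, v ∈ V) :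
    u (st r b (min i j : ℕ)) = u (st r b (max i j + 1 : ℕ)) := by
  have := hu.rc hV P.par (P.join h)
  push_cast
  push_cast at this
  exact this

theorem ov_mono (ht : t ≤ r.L) (hs : s ≤ R) : ov r b c t s ω ⊆ ov r b c t R ω := by
  intro e he
  rw [mem_ov ht] at he ⊢
  obtain ⟨i, j, h1, h2, h3, h4, h5, h6, h7, h8, h9⟩ := he
  refine ⟨i, j, h1, h2, h3, h4, h5, h6, h7, fun k hk => ?_, h9⟩
  have h10 := h8 k hk
  rw [mem_coe, mem_bxJ] at h10 ⊢
  split_ifs at h10 ⊢ <;> omega

/-- **The arm from the outer site of a strand** if there is no strand over the junction with the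
other outer colour. -/
theorem arm_outer (h : Gd r R) (hs : Gd r s) (hsR : s ≤ R)
    (hov : ov r b (!c) r.k0 R ω = ∅) (hx : x ∈ ov r b c r.k0 s ω) :
    ω ∈ AR r b c (Db r b R) (sd c x) (R - 1) := by
  have g1 := h.h2
  have g2 := h.lo
  have g3 := h.hi
  obtain ⟨i, j, φ, P⟩ := exists_pot hs (by omega) hx
  obtain ⟨t', ht1, ht2, ht3, ht4, ht5⟩ := P.site hs
  have hpar : ((st r b t').1 + (st r b t').2) % 2 = pr c := by
    rw [← ht1]
    exact sd_par _ _
  rw [ht1]
  by_cases hfar : (t' : ℤ) ≤ r.k0 - R ∨ (r.k0 : ℤ) + R ≤ t'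
  · refine ⟨st r b t', ?_, ReflTransGen.refl⟩
    change R - 1 ≤ max |(st r b t').1 - (pc r b).1| |(st r b t').2 - (pc r b).2|
    rw [le_max_iff, le_abs, le_abs]
    unfold pc st
    by_cases ho : r.o = true <;>
      simp only [ho, if_true, if_false, Bool.false_eq_true] <;> omega
  · push Not at hfar
    apply arm_of_ov h (by omega) (by omega) hpar
    rw [eq_empty_iff_forall_notMem]
    intro a ha
    obtain ⟨i', j', ψ, P'⟩ := exists_pot h ht4 ha
    have h1 := P.far_eq hs P'.pt (fun v hv => Db_off v hv)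
    have h2 := P'.min_lt
    have h3 := P.min_lt
    have hl := P.lt_L
    have v1 := P'.vals (min i j) (by omega)
    have v2 := P'.vals (max i j + 1) (by omega)
    have h4 : ψ (st r b t') ≠ 0 := (P'.vals t' ht4).2 h2
    have h5 : ψ (st r b (min i j : ℕ)) ≠ 0 ∧ ψ (st r b (max i j + 1 : ℕ)) ≠ 0 := by
      rcases ht5 with h6 | h6
      · rw [h6] at h4
        exact ⟨h4, by rw [← h1]; exact h4⟩
      · rw [h6] at h4
        exact ⟨by rw [h1]; exact h4, h4⟩
    have h6 := v1.1 h5.1
    have h7 := v2.1 h5.2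
    have h8 := (P'.move (t' := r.k0) (by omega) (by omega)).mem (by omega)
    rw [hov] at h8
    exact notMem_empty _ h8

/-- **(B1)** -/
theorem arm_two (h : Gd r R) (hs : Gd r s) (hsR : s < R) (hp : ((pc r b).1 + (pc r b).2) % 2 = pr f)
    (hov : ov r b f r.k0 R ω = ∅) : ω ∈ AR r b f (Db r b s) (pc r b) (s - 1) ∨
      ∃ x, ω ∈ E1 r b (!f) x s ∧ ω ∈ AR r b (!f) (Db r b R) (sd (!f) x) (R - 1) := by
  have g1 := h.h2
  have g2 := h.lo
  have g3 := h.hi
  have q1 := hs.h2
  by_cases h0 : ov r b (!f) r.k0 s ω = ∅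
  · exact Or.inl (arm_of_ov hs (by omega) (by omega) hp h0)
  right
  obtain ⟨x, hx⟩ := nonempty_iff_ne_empty.2 h0
  have hk : r.k0 ≤ r.L := by omega
  have hov' : ov r b (!(!f)) r.k0 R ω = ∅ := by rw [Bool.not_not]; exact hov
  refine ⟨x, ⟨?_, ?_⟩, arm_outer h hs hsR.le hov' hx⟩
  · rw [eq_singleton_iff_unique_mem]
    refine ⟨hx, fun x' hx' => ?_⟩
    -- both strands have the same left foot
    have key : ∀ {x x' : Ed} {i j i' j' : ℕ} {φ φ' : ℤ × ℤ → ℤ},
        SP1 r b (!f) r.k0 s ω x i j φ → SP1 r b (!f) r.k0 s ω x' i' j' φ' → min i j ≤ min i' j' := by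
      intro x x' i j i' j' φ φ' P P'
      have ha := arm_outer h hs hsR.le hov' (P.mem hk)
      obtain ⟨z, hz1, hz2⟩ := ha
      obtain ⟨t', ht1, ht2, ht3, ht4, ht5⟩ := P.site hs
      have h1 := P'.pt.rc (A := Db r b R) (fun v hv => Db_off v hv) (sd_par _ _) hz2
      obtain ⟨v, hv, hvz⟩ := far_corner hs (show s ≤ nm (z - pc r b) by omega)
      rw [P'.off v hv z hvz, ht1] at h1
      have h2 := P.far_eq hs P'.pt (fun v hv => Db_off v hv)
      have h3 := P'.min_lt
      have h4 := P.min_lt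
      have hl := P.lt_L
      have h5 : φ' (st r b (min i j : ℕ)) = 0 := by
        rcases ht5 with h6 | h6
        · rw [h6] at h1
          exact h1
        · rw [h6] at h1
          rw [h2]
          exact h1
      by_contra hc
      exact (P'.vals (min i j) (by omega)).2 (by omega) h5
    obtain ⟨i, j, φ, P⟩ := exists_pot hs hk hx
    obtain ⟨i', j', φ', P'⟩ := exists_pot hs hk hx'
    have h1 : min i j = min i' j' := le_antisymm (key P P') (key P' P)
    by_contra hne
    have h2 : ∀ y ∈ exc r.I ω x', y ∉ exc r.I ω x := fun y hy =>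
      exc_disj P'.ou P'.tl P'.rt P.ou P.tl P.rt hne hy
    have h3 : face r b (min i j) ∈ exc r.I ω x := by
      rcases le_total i j with h4 | h4
      · rw [min_eq_left h4]; exact P.self_mem
      · rw [min_eq_right h4]; exact P.last_mem
    have h4 : face r b (min i' j') ∈ exc r.I ω x' := by
      rcases le_total i' j' with h4 | h4
      · rw [min_eq_left h4]; exact P'.self_mem
      · rw [min_eq_right h4]; exact P'.last_mem
    rw [← h1] at h4
    exact h2 _ h4 h3
  · rw [Bool.not_not, ← subset_empty, ← hov]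
    exact ov_mono hk hsR.le

/-- **(B2)** -/
theorem ov_two (h : Gd r R) (hs : Gd r s) (hA : ∀ v ∈ A, v ∉ r.I)
    (hE : ω ∈ E1 r b (!f) x s) (hω : ω ∈ AR r b (!f) A (sd (!f) x) R) :
    ov r b f r.k0 R ω = ∅ := by
  have g1 := h.h2
  have g2 := h.lo
  have g3 := h.hi
  have hk : r.k0 ≤ r.L := by omega
  obtain ⟨hE1, hE2⟩ := hE
  rw [Bool.not_not] at hE2
  have hx : x ∈ ov r b (!f) r.k0 s ω := by rw [hE1]; exact mem_singleton_self _
  obtain ⟨i, j, φ, P⟩ := exists_pot hs hk hx
  rw [eq_empty_iff_forall_notMem]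
  intro a ha
  obtain ⟨i', j', ψ, P'⟩ := exists_pot h hk ha
  obtain ⟨z, hz1, hz2⟩ := hω
  obtain ⟨t', ht1, ht2, ht3, ht4, ht5⟩ := P.site hs
  have h1 := P'.pt.rc (A := A) (fun v hv => hA v hv) (sd_par _ _) hz2
  obtain ⟨v, hv, hvz⟩ := far_corner h hz1
  rw [P'.off v hv z hvz, ht1] at h1
  have h2 := P.far_eq hs P'.pt (fun v hv => Db_off v hv)
  have h3 := P'.min_lt
  have h4 := P.min_lt
  have hl := P.lt_L
  have h5 : ψ (st r b (min i j : ℕ)) = 0 ∧ ψ (st r b (max i j + 1 : ℕ)) = 0 := by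
    rcases ht5 with h6 | h6
    · rw [h6] at h1
      exact ⟨h1, by rw [← h2]; exact h1⟩
    · rw [h6] at h1
      exact ⟨by rw [h2]; exact h1, h1⟩
  have v1 : ¬ (min i' j' < min i j ∧ min i j ≤ max i' j') := fun h =>
    (P'.vals (min i j) (by omega)).2 h h5.1
  have v2 : ¬ (min i' j' < max i j + 1 ∧ max i j + 1 ≤ max i' j') := fun h =>
    (P'.vals (max i j + 1) (by omega)).2 h h5.2
  -- the strands are different
  have hax : a ≠ x := by
    rintro rfl
    have e1 := face_inj h.L1 P.hi P'.hi (P.fi.symm.trans P'.fi)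
    have e2 := face_inj h.L1 P.hj P'.hj (P.fj.symm.trans P'.fj)
    have d1 := P.dir
    have d2 := P'.dir
    rcases d1 with ⟨d1, d3, d4⟩ | ⟨d1, d3, d4⟩ <;> rcases d2 with ⟨d2, d5, d6⟩ | ⟨d2, d5, d6⟩
    · rw [← d2] at d1; cases f <;> simp at d1
    · omega
    · omega
    · cases f <;> cases hh : decide (r.o = b) <;> simp [hh] at d1 d2
  -- the potential of `x` does not vanish along `a`
  have hdis : ∀ y ∈ exc r.I ω a, y ∉ exc r.I ω x := fun y hy =>
    exc_disj P'.ou P'.tl P'.rt P.ou P.tl P.rt hax hy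
  have hab : ∀ m : ℕ, (m = i' ∨ m = j') → m ≠ i ∧ m ≠ j := by
    intro m hm
    have hm' : face r b m ∈ exc r.I ω a := by
      rcases hm with rfl | rfl
      · exact P'.self_mem
      · exact P'.last_mem
    have h6 := hdis _ hm'
    constructor
    · rintro rfl
      exact h6 P.self_mem
    · rintro rfl
      exact h6 P.last_mem
  have w1 := hab i' (Or.inl rfl)
  have w2 := hab j' (Or.inr rfl)
  have hne : ∀ y ∈ exc r.I ω a, φ (sd f y) ≠ 0 := by
    intro y hy
    have h6 := P.pt.rc (A := Db r b R) (fun v hv => Db_off v hv) P'.par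
      (ReflTransGen.trans (a := st r b (min i' j' : ℕ)) (b := sd f a) (c := sd f y) ?_
        (P'.rc h hy f))
    · rw [← h6]
      exact (P.vals (min i' j') (by omega)).2 (by omega)
    · obtain ⟨t2, k1, k2, k3, k4, k5⟩ := P'.site h
      rw [k1]
      rcases k5 with k5 | k5
      · rw [k5]
      · rw [k5, Nat.cast_add, Nat.cast_one]
        exact P'.join h
  have hsy : Stays r.I (bxJ r s : Set (ℤ × ℤ)) ω a := by
    intro k hk'
    by_contra hc
    have hy : (nx ω)^[k] a ∈ exc r.I ω a := mem_exc.2 ⟨k, hk'.le, rfl⟩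
    exact hne _ hy (P.off _ (fun h => hc (mem_coe.2 h)) _ (sd_isC f _).1)
  have h7 : a ∈ ov r b f r.k0 s ω := (mem_ov hk).2 ⟨i', j', P'.hi, P'.hj, P'.fi, P'.fj, P'.ou, P'.tl,
    P'.rt, hsy, P'.dir⟩
  rw [hE2] at h7
  exact notMem_empty _ h7

end Vale.Agent.P167.H135.Z
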