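import Vale.Agent.P167.H135.Z.Box

/-!
# P167, general `q`, Q-NORM: without a strand over a site there is an arm
-/

namespace Vale.Agent.P167.H135.Z

open Finset Relation
open Vale.Agent.P167.BR
open Vale.Agent.P167.Top
open Vale.Agent.P167.XDL (bS mem_bS)
open Vale.Agent.P167.H199 (strand ret Returns mem_strand ret_le ret_min)
open Vale.Agent.P167.QX (exc mem_exc exc_last exc_ni exc_nx exc_disj ExtPot out_stays)
open Vale.Agent.P145.FB (PStep)
open Vale.Agent.P167.H632 (pr cs)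
open Vale.Agent.P167.H825.Q (Row)
open Vale.Agent.P167.H945.Q (face faces lrs)
open Vale.Agent.P167.H871.Q
open Vale.Agent.P167.H871

variable {r : Row} {b c f : Bool} {ω : Cfg} {R s : ℤ} {t k i j : ℕ} {e x : Ed} {v z : ℤ × ℤ}
  {D : Finset (ℤ × ℤ)} {A : Finset Ed} {φ : ℤ × ℤ → ℤ}

theorem rc_stp {s t : ℤ × ℤ} (hs : (s.1 + s.2) % 2 = pr f) (h : Stp ω D s t) : Rc f D ω s t := by
  rw [stp_iff hs] at h
  exact ReflTransGen.single ⟨h.1, h.2.1, h.2.2.1, mem_coe.1 h.2.2.2⟩

/-- **A piece which borders a cluster and separates one of its sites from a site off the cluster.** -/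
theorem exists_sep (hS : SCon D) (hE : ECon D) {u z : ℤ × ℤ} (hu : u ∈ sites D)
    (hz : z ∈ sites D) (hp : (u.1 + u.2) % 2 = pr f) (hnz : ¬ Rc f D ω u z) :
    ∃ A ∈ pcs ω D, (∃ U, PotD D A U ∧ U u ≠ U z) ∧ ∀ x ∈ A, Rc f D ω u (sd f x) := by
  classical
  let C : Set (ℤ × ℤ) := {s | Rc f D ω u s}
  have hCp : ∀ {s}, s ∈ C → (s.1 + s.2) % 2 = pr f := fun {s} hs => by
    rw [rc_par (show Rc f D ω u s from hs), hp]
  have hCst : ∀ {s t}, Stp ω D s t → (s ∈ C ↔ t ∈ C) := by
    intro s t hst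
    constructor
    · intro hs
      exact ReflTransGen.trans (show Rc f D ω u s from hs) (rc_stp (hCp hs) hst)
    · intro hs
      exact ReflTransGen.trans (show Rc f D ω u t from hs) (rc_stp (hCp hs) hst.symm)
  have hCl : ∀ A ∈ pcs ω D, ∀ e ∈ A, ∀ e' ∈ A, (ls e ∈ C ↔ ls e' ∈ C) := by
    intro A hA e he e' he'
    refine piece_const (P := fun e => ls e ∈ C) hA (fun e he => ?_) he he'
    rcases ls_stp (ω := ω) he with h1 | h1
    · simp only [h1]
    · exact hCst h1
  have hCr : ∀ A ∈ pcs ω D, ∀ e ∈ A, ∀ e' ∈ A, (rs e ∈ C ↔ rs e' ∈ C) := by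
    intro A hA e he e' he'
    refine piece_const (P := fun e => rs e ∈ C) hA (fun e he => ?_) he he'
    rcases rs_stp (ω := ω) he with h1 | h1
    · simp only [h1]
    · exact hCst h1
  let τ : Finset Ed → ℤ := fun A =>
    (if ∃ e ∈ A, ls e ∈ C then 1 else 0) - (if ∃ e ∈ A, rs e ∈ C then 1 else 0)
  have hτ : ∀ A ∈ pcs ω D, ∀ e ∈ A, τ A = (if ls e ∈ C then 1 else 0) -
      (if rs e ∈ C then 1 else 0) := by
    intro A hA e he
    have h1 : (∃ e ∈ A, ls e ∈ C) ↔ ls e ∈ C :=
      ⟨fun ⟨e', he', h'⟩ => (hCl A hA e' he' e he).1 h', fun h' => ⟨e, he, h'⟩⟩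
    have h2 : (∃ e ∈ A, rs e ∈ C) ↔ rs e ∈ C :=
      ⟨fun ⟨e', he', h'⟩ => (hCr A hA e' he' e he).1 h', fun h' => ⟨e, he, h'⟩⟩
    simp only [τ, h1, h2]
  choose! U hU using fun A (hA : A ∈ pcs ω D) => exists_potD hS hA
  let H : ℤ × ℤ → ℤ := fun s => (if s ∈ C then (1 : ℤ) else 0) - ∑ A ∈ pcs ω D, τ A * U A s
  have hH : ∀ s t, ReflTransGen (Ec D) s t → H s = H t := by
    intro s t h
    induction h with
    | refl => rfl
    | tail _ h ih =>
      rw [ih]
      obtain ⟨e, he, h3⟩ := h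
      have h4 := sum_pot hU τ he
      have h5 := hτ _ (piece_mem_pcs he) e (self_mem_piece he)
      have h6 : H (ls e) = H (rs e) := by
        simp only [H]
        linarith
      rcases h3 with ⟨h3, h7⟩ | ⟨h3, h7⟩ <;> rw [← h3, ← h7]
      · exact h6
      · exact h6.symm
  have h1 := hH u z (hE u hu z hz)
  simp only [H] at h1
  rw [if_pos (show u ∈ C from ReflTransGen.refl), if_neg (show z ∉ C from hnz)] at h1
  obtain ⟨A, hA, hAne⟩ : ∃ A ∈ pcs ω D, τ A * U A u ≠ τ A * U A z := by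
    by_contra hno
    push Not at hno
    rw [sum_congr rfl hno] at h1
    linarith
  have hτA : τ A ≠ 0 := fun h0 => hAne (by rw [h0]; ring)
  have hsep : U A u ≠ U A z := fun h0 => hAne (by rw [h0])
  refine ⟨A, hA, ⟨U A, hU A hA, hsep⟩, fun x hx => ?_⟩
  have h2 := hτ A hA x hx
  unfold sd
  by_cases hl : ls x ∈ C
  · have h3 := hCp hl
    have h4 := even_ls x
    rw [Int.even_iff] at h4
    cases f
    · simp only [pr, Bool.false_eq_true, if_false] at h3
      omega
    · exact hl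
  · by_cases hr : rs x ∈ C
    · have h3 := hCp hr
      have h4 := odd_rs x
      rw [Int.even_iff] at h4
      cases f
      · exact hr
      · simp only [pr, if_true] at h3
        omega
    · rw [if_neg hl, if_neg hr] at h2
      exact absurd h2 hτA

/-- The potential of a piece along the line of the face. -/
theorem line_const (h : 2 ≤ R) {U : ℤ × ℤ → ℤ} (hU : PotD (Db r b R) A U) {m m' : ℕ}
    (hm : m ≤ m') (h1 : r.k0 - R ≤ m) (h2 : (m' : ℤ) ≤ r.k0 + R)
    (hn : ∀ k : ℕ, m ≤ k → k < m' → face r b k ∉ A) : U (st r b m) = U (st r b m') := by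
  induction m', hm using Nat.le_induction with
  | base => rfl
  | succ k hk ih =>
    rw [ih (by push_cast at h2; omega) (fun k' h3 h4 => hn k' h3 (by omega))]
    have h3 := hU.eq (face_eds (b := b) h (by omega) (by push_cast at h2; omega))
      (hn k hk (by omega))
    push_cast
    rcases face_st r b k with ⟨h4, h5⟩ | ⟨h4, h5⟩ <;> rw [h4, h5] at h3
    · exact h3
    · exact h3.symm

/-- A boundary edge of the half box with both squares in the box is on the face. -/
theorem bd_face (h : Gd r R) {v w : ℤ × ℤ}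
    (hx : (hdv x = v ∧ tlv x = w) ∨ (hdv x = w ∧ tlv x = v)) (hv : v ∈ Db r b R)
    (hw : w ∉ Db r b R) (hwB : w ∈ bxJ r R) :
    ∃ k : ℕ, r.k0 - R ≤ k ∧ (k : ℤ) < r.k0 + R ∧ x = face r b k := by
  have g2 := h.h2
  have g3 := h.lo
  have hws : ¬ Sd r b w := fun h => hw (mem_Db.2 ⟨hwB, h⟩)
  rw [mem_Db, mem_bxJ] at hv
  rw [mem_bxJ] at hwB
  obtain ⟨hv1, hv2⟩ := hv
  unfold Sd at hws hv2
  rcases edge_cases x with ⟨p, q, hxx, hsq, -⟩ | ⟨p, q, hxx, hsq, -⟩
  · have hvw : (v = (p, q) ∧ w = (p + 1, q)) ∨ (v = (p + 1, q) ∧ w = (p, q)) := by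
      rcases hsq with ⟨h4, h5⟩ | ⟨h4, h5⟩ <;> rcases hx with ⟨h6, h7⟩ | ⟨h6, h7⟩ <;>
        rw [← h6, ← h7, h4, h5] <;> simp
    by_cases ho : r.o = true
    · exfalso
      rcases hvw with ⟨h4, h5⟩ | ⟨h4, h5⟩ <;> rw [h4] at hv1 hv2 <;> rw [h5] at hws hwB <;>
        cases b <;> simp only [ho, if_true, if_false, Bool.false_eq_true] at hv1 hv2 hws hwB <;>
        omega
    · have h6 : (if b then p = r.x.1 else p + 1 = r.x.1) ∧ (r.k0 : ℤ) - R ≤ q - r.x.2 ∧
          q - r.x.2 < r.k0 + R := by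
        rcases hvw with ⟨h4, h5⟩ | ⟨h4, h5⟩ <;> rw [h4] at hv1 hv2 <;> rw [h5] at hws hwB <;>
          cases b <;> simp only [ho, if_true, if_false, Bool.false_eq_true] at hv1 hv2 hws hwB ⊢ <;>
          omega
      refine ⟨(q - r.x.2).toNat, by omega, by omega, ?_⟩
      rw [hxx]
      unfold face Row.sq
      have h7 : 0 ≤ q - r.x.2 := by omega
      have h8 := h6.1
      cases b <;> simp only [ho, if_true, if_false, Bool.false_eq_true] at h8 ⊢ <;>
        rw [Int.toNat_of_nonneg h7] <;> congr 2 <;> omega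
  · have hvw : (v = (p, q) ∧ w = (p, q + 1)) ∨ (v = (p, q + 1) ∧ w = (p, q)) := by
      rcases hsq with ⟨h4, h5⟩ | ⟨h4, h5⟩ <;> rcases hx with ⟨h6, h7⟩ | ⟨h6, h7⟩ <;>
        rw [← h6, ← h7, h4, h5] <;> simp
    by_cases ho : r.o = true
    · have h6 : (if b then q = r.x.2 else q + 1 = r.x.2) ∧ (r.k0 : ℤ) - R ≤ p - r.x.1 ∧
          p - r.x.1 < r.k0 + R := by
        rcases hvw with ⟨h4, h5⟩ | ⟨h4, h5⟩ <;> rw [h4] at hv1 hv2 <;> rw [h5] at hws hwB <;>
          cases b <;> simp only [ho, if_true, if_false, Bool.false_eq_true] at hv1 hv2 hws hwB ⊢ <;>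
          omega
      refine ⟨(p - r.x.1).toNat, by omega, by omega, ?_⟩
      rw [hxx]
      unfold face Row.sq
      have h7 : 0 ≤ p - r.x.1 := by omega
      have h8 := h6.1
      cases b <;> simp only [ho, if_true, if_false, Bool.false_eq_true] at h8 ⊢ <;>
        rw [Int.toNat_of_nonneg h7] <;> congr 2 <;> omega
    · exfalso
      rcases hvw with ⟨h4, h5⟩ | ⟨h4, h5⟩ <;> rw [h4] at hv1 hv2 <;> rw [h5] at hws hwB <;>
        cases b <;> simp only [ho, if_true, if_false, Bool.false_eq_true] at hv1 hv2 hws hwB <;>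
        omega

/-- **(U), exact form.** If there is no strand over the site `t` with outer side of the other colour
then the site is joined to a corner of a square off the box. -/
theorem arm_of_ov' (h : Gd r R) (h1 : (r.k0 : ℤ) - R < t) (h2 : (t : ℤ) < r.k0 + R)
    (hp : ((st r b t).1 + (st r b t).2) % 2 = pr f) (hov : ov r b (!f) t R ω = ∅) :
    ∃ z, Rc f (Db r b R) ω (st r b t) z ∧ ∃ v ∉ bxJ r R, IsC v z := by
  classical
  have hR := h.h2
  have hlo := h.lo
  have hhi := h.hi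
  have hL := h.L1
  by_contra hno
  push Not at hno
  obtain ⟨m0, hm0⟩ : ∃ m0 : ℕ, (m0 : ℤ) = r.k0 - R := ⟨(r.k0 - R).toNat, by omega⟩
  have hz0 : ¬ Rc f (Db r b R) ω (st r b t) (st r b m0) := by
    intro hz
    have h3 : R ≤ nm (st r b m0 - pc r b) := by
      change R ≤ max |(st r b m0).1 - (pc r b).1| |(st r b m0).2 - (pc r b).2|
      rw [le_max_iff, le_abs, le_abs]
      unfold pc st
      by_cases ho : r.o = true <;>
        simp only [ho, if_true, if_false, Bool.false_eq_true] <;> omega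
    obtain ⟨v, hv, hvz⟩ := far_corner h h3
    exact hno _ hz v hv hvz
  obtain ⟨A, hA, ⟨U, hU, hUne⟩, hC⟩ := exists_sep (ω := ω) (scon_Db (r := r) (b := b) (R := R))
    (econ_Db hR) (st_mem hR (by omega) (by omega)) (st_mem hR (by omega) (by omega)) hp hz0
  have hfar : ∀ x ∈ A, ∀ v, v = hdv x ∨ v = tlv x → v ∈ bxJ r R := by
    intro x hx v hv
    by_contra hc
    refine hno _ (hC x hx) v hc ?_
    rcases hv with rfl | rfl
    · exact (sd_isC f x).1
    · exact (sd_isC f x).2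
  -- some face is in the piece
  obtain ⟨k1, g1, g2, g3⟩ : ∃ k1 : ℕ, m0 ≤ k1 ∧ k1 < t ∧ face r b k1 ∈ A := by
    by_contra hcon
    push Not at hcon
    exact hUne (line_const hR hU (by omega) (by omega) (by omega)
      (fun k h3 h4 => hcon k h3 h4)).symm
  have hl : ¬ IsLp (Db r b R) A := by
    intro hl
    rcases face_bd r b k1 with h3 | h3
    · exact h3 (hl _ g3)
    · exact h3 (hl.tl hA g3)
  obtain ⟨e1, he1, ht1⟩ := exists_entry hA hl
  obtain ⟨e2, he2, ht2⟩ := exists_exit hl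
  have he1' := mem_eds.1 (subset_eds hA he1)
  have he2' := mem_eds.1 (subset_eds hA he2)
  obtain ⟨i, hi1, hi2, hi3⟩ : ∃ k : ℕ, r.k0 - R ≤ k ∧ (k : ℤ) < r.k0 + R ∧ e1 = face r b k :=
    bd_face h (Or.inl ⟨rfl, rfl⟩) (he1'.resolve_right ht1) ht1 (hfar e1 he1 _ (Or.inr rfl))
  obtain ⟨j, hj1, hj2, hj3⟩ : ∃ k : ℕ, r.k0 - R ≤ k ∧ (k : ℤ) < r.k0 + R ∧ e2 = face r b k :=
    bd_face h (Or.inr ⟨rfl, rfl⟩) (he2'.resolve_left ht2) ht2 (hfar e2 he2 _ (Or.inl rfl))
  -- the run from `e1` to `e2`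
  obtain ⟨N, hN⟩ : ∃ N, Run ω (Db r b R) e1 N e2 := by
    obtain ⟨N, h3 | h3⟩ := run_of_mem hA he1 he2
    · exact ⟨N, h3⟩
    · rcases Nat.eq_zero_or_pos N with rfl | h4
      · exact ⟨0, h3.1.symm, fun _ h => absurd h (Nat.not_lt_zero _)⟩
      · exact absurd (h3.2 0 h4) ht2
  have hN0 : 0 < N := by
    rcases Nat.eq_zero_or_pos N with rfl | h4
    · have h5 : e1 = e2 := hN.1
      rw [← h5] at ht2
      exact absurd (he1'.resolve_right ht1) ht2
    · exact h4
  have hDI : ∀ v ∈ Db r b R, v ∉ r.I := by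
    intro v hv hI
    obtain ⟨k, -, rfl⟩ := mem_image.1 (show v ∈ (range r.L).image r.sq from hI)
    exact sq_not_mem _ _ _ hv
  have hou : hdv e1 ∉ r.I := hDI _ (he1'.resolve_right ht1)
  have htl : tlv e1 ∈ r.I := by
    rcases face_sq r b i with ⟨h3, h4⟩ | ⟨h3, h4⟩
    · exfalso
      rw [hi3, h4] at ht1
      exact ht1 (osq_mem hR hi1 hi2)
    · rw [hi3, h4]
      exact mem_image_of_mem _ (mem_range.2 (by omega))
  have he2S : e2 ∈ bS r.I := by
    rw [hj3]
    exact faces_bS (b := b) hL (le_refl r.L)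
      (mem_image_of_mem _ (mem_Ico.2 ⟨Nat.zero_le _, by omega⟩))
  have hrt : Returns (nx ω) (bS r.I) e1 := ⟨N, hN0, by rw [hN.1]; exact he2S⟩
  have hret : ret (nx ω) (bS r.I) e1 = N := by
    refine le_antisymm (ret_le hN0 (by rw [hN.1]; exact he2S)) ?_
    by_contra hlt
    push Not at hlt
    obtain ⟨h3, h4⟩ := hrt.spec
    obtain ⟨m, hm⟩ : ∃ m, ret (nx ω) (bS r.I) e1 = m + 1 := ⟨ret (nx ω) (bS r.I) e1 - 1, by omega⟩
    rw [hm] at h4 hlt
    rw [mem_bS, Function.iterate_succ_apply', tlv_nx] at h4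
    rcases h4 with h4 | h4
    · rw [← Function.iterate_succ_apply' (nx ω)] at h4
      exact hDI _ (hN.2 (m + 1) hlt) h4.1
    · exact hDI _ (hN.2 m (by omega)) h4.2
  have hsy : Stays r.I (bxJ r R : Set (ℤ × ℤ)) ω e1 := by
    intro k hk
    rw [hret] at hk
    exact mem_coe.2 (mem_Db.1 (hN.2 k hk)).1
  -- the potential of the strand
  have hij : i ≠ j := by
    rintro rfl
    rw [hi3, ← hj3] at ht1
    have h3 := he1'.resolve_right (by rw [hi3, ← hj3]; exact ht1)
    rw [hi3, ← hj3] at h3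
    exact ht2 h3
  obtain ⟨c0, hc0⟩ : ∃ c0 : Bool, (c0 = decide (r.o = b) ∧ i < j) ∨
      (c0 ≠ decide (r.o = b) ∧ j < i) := by
    rcases lt_or_gt_of_ne hij with h3 | h3
    · exact ⟨_, Or.inl ⟨rfl, h3⟩⟩
    · exact ⟨!decide (r.o = b), Or.inr ⟨by simp, h3⟩⟩
  have hmem : e1 ∈ ov r b c0 (min i j + 1) R ω := by
    rw [mem_ov (by omega)]
    refine ⟨i, j, by omega, by omega, hi3, by rw [hret, hN.1]; exact hj3, hou, htl, hrt, hsy, ?_⟩
    rcases hc0 with ⟨h3, h4⟩ | ⟨h3, h4⟩
    · exact Or.inl ⟨h3, by omega, by omega⟩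
    · exact Or.inr ⟨h3, by omega, by omega⟩
  obtain ⟨i', j', φ, P⟩ := exists_pot h (by omega) hmem
  -- the same potential
  have hAe : ∀ x ∈ eds (Db r b R), (x ∈ A ↔ x ∈ exc r.I ω e1) := by
    intro x hx
    constructor
    · intro hxA
      obtain ⟨m, h3⟩ : ∃ m, Run ω (Db r b R) e1 m x := by
        obtain ⟨m, h3 | h3⟩ := run_of_mem hA he1 hxA
        · exact ⟨m, h3⟩
        · rcases Nat.eq_zero_or_pos m with rfl | h4
          · exact ⟨0, h3.1.symm, fun _ h => absurd h (Nat.not_lt_zero _)⟩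
          · exfalso
            obtain ⟨m', rfl⟩ : ∃ m', m = m' + 1 := ⟨m - 1, by omega⟩
            have h5 := h3.1
            rw [Function.iterate_succ_apply'] at h5
            apply ht1
            rw [← h5, tlv_nx]
            exact h3.2 m' (by omega)
      refine mem_exc.2 ⟨m, ?_, h3.1⟩
      rw [hret]
      by_contra hc
      push Not at hc
      have h5 := h3.2 N hc
      rw [hN.1] at h5
      exact ht2 h5
    · intro hxe
      obtain ⟨m, hm, rfl⟩ := mem_exc.1 hxe
      rw [hret] at hm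
      exact (mem_of_run hA (e := e1) (k := m) ⟨rfl, fun j hj => hN.2 j (by omega)⟩).1 he1
  have hUφ : ∀ s t, ReflTransGen (Ec (Db r b R)) s t → U s - φ s = U t - φ t := by
    intro s t h
    induction h with
    | refl => rfl
    | tail _ h ih =>
      rw [ih]
      obtain ⟨e, he, h3⟩ := h
      have h4 := hU e he
      have h5 := P.pt.jp e (by
        rcases mem_eds.1 he with h6 | h6
        · exact Or.inl (hDI _ h6)
        · exact Or.inr (hDI _ h6))
      have h7 := hAe e he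
      have h6 : U (ls e) - φ (ls e) = U (rs e) - φ (rs e) := by
        by_cases hx : e ∈ A
        · rw [if_pos hx] at h4
          rw [if_pos (mem_coe.2 (h7.1 hx))] at h5
          omega
        · rw [if_neg hx] at h4
          rw [if_neg (fun h8 => hx (h7.2 (mem_coe.1 h8)))] at h5
          omega
      rcases h3 with ⟨h3, h8⟩ | ⟨h3, h8⟩ <;> rw [← h3, ← h8]
      · exact h6
      · exact h6.symm
  have hφt : φ (st r b t) ≠ 0 := by
    have h3 := hUφ _ _ (econ_Db hR _ (st_mem (b := b) hR (t := (t : ℤ)) (by omega) (by omega)) _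
      (st_mem (b := b) hR (t := (m0 : ℤ)) (by omega) (by omega)))
    have h4 : φ (st r b m0) = 0 := by
      by_contra hc
      have h5 := (P.vals m0 (by omega)).1 hc
      have h6 : face r b i' = face r b i := by rw [← P.fi, hi3]
      have h7 : face r b j' = face r b j := by rw [← P.fj, hret, hN.1, hj3]
      have h8 : ∀ {a a' : ℕ}, a < r.L → a' < r.L → face r b a = face r b a' → a = a' := by
        intro a a' ha ha' hh
        have h9 := be_inj_face (b := b) hL (i := fk r b a) (k := a') (by unfold fk; split_ifs <;> omega)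
          ha' (by
            rw [be_face hL (by unfold fk; split_ifs <;> omega)]
            rw [← hh]
            congr 1
            unfold fk; split_ifs <;> omega)
        unfold fk at h9
        split_ifs at h9 <;> omega
      have h9 := h8 P.hi (by omega) h6
      have h10 := h8 P.hj (by omega) h7
      omega
    intro hc
    apply hUne
    rw [hc, h4] at h3
    linarith
  have hin := (P.vals t (by omega)).1 hφt
  have P' := P.move hin.1 hin.2
  -- the outer colour
  have hcf : c0 = !f := by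
    have h3 := P.pt.rc (A := Db r b R) (fun v hv => hDI v hv) hp (hC e1 he1)
    by_contra hc
    have h4 : c0 = f := by
      cases c0 <;> cases f <;> simp_all
    have h5 := P.out e1 (mem_exc.2 ⟨0, Nat.zero_le _, rfl⟩)
    rw [h4] at h5
    exact hφt (by rw [h3, h5])
  have h3 := P'.mem (by omega)
  rw [hcf, hov] at h3
  exact notMem_empty _ h3

/-- A corner of a square off the box is far. -/
theorem far_off (h : 2 ≤ R) (hv : v ∉ bxJ r R) (hz : IsC v z) : R - 1 ≤ nm (z - pc r b) := by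
  change R - 1 ≤ max |z.1 - (pc r b).1| |z.2 - (pc r b).2|
  rw [le_max_iff, le_abs, le_abs]
  rw [mem_bxJ] at hv
  obtain ⟨h1, h2⟩ := hz
  unfold pc st
  by_cases ho : r.o = true <;> cases b <;>
    simp only [ho, if_true, if_false, Bool.false_eq_true] at hv ⊢ <;> omega

/-- **(U)** If there is no strand over the site `t` with outer side of the other colour then there
is an arm. -/
theorem arm_of_ov (h : Gd r R) (h1 : (r.k0 : ℤ) - R < t) (h2 : (t : ℤ) < r.k0 + R)
    (hp : ((st r b t).1 + (st r b t).2) % 2 = pr f) (hov : ov r b (!f) t R ω = ∅) :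
    ω ∈ AR r b f (Db r b R) (st r b t) (R - 1) := by
  obtain ⟨z, h3, v, h4, h5⟩ := arm_of_ov' h h1 h2 hp hov
  exact ⟨z, far_off h.h2 h4 h5, h3⟩

/-- **(L), exact form.** -/
theorem ov_of_arm' (h : Gd r R) (ht : t ≤ r.L)
    (hp : ((st r b t).1 + (st r b t).2) % 2 = pr f) {A : Finset (ℤ × ℤ)}
    (hA : ∀ v ∈ A, v ∉ r.I) (hz : Rc f A ω (st r b t) z) (hv : v ∉ bxJ r R) (hvz : IsC v z)
    (c : Bool) : ov r b c t R ω = ∅ := by
  rw [eq_empty_iff_forall_notMem]
  intro e he
  obtain ⟨i, j, φ, P⟩ := exists_pot h ht he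
  have h1 := P.pt.rc (fun v hv => hA v hv) hp hz
  rw [P.off v hv z hvz] at h1
  have h2 := (P.vals t ht).2 (by rcases P.dir with h | h <;> omega)
  exact h2 h1

/-- If there is a strand over the site `t` then there is one with outer side of the other colour. -/
theorem ov_none (h : Gd r R) (h1 : (r.k0 : ℤ) - R < t) (h2 : (t : ℤ) < r.k0 + R)
    (hp : ((st r b t).1 + (st r b t).2) % 2 = pr f) (hov : ov r b (!f) t R ω = ∅) (c : Bool) :
    ov r b c t R ω = ∅ := by
  have hlo := h.lo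
  have hhi := h.hi
  obtain ⟨z, h3, v, h4, h5⟩ := arm_of_ov' h h1 h2 hp hov
  refine ov_of_arm' h (by omega) hp (A := Db r b R) (fun v hv hI => ?_) h3 h4 h5 c
  obtain ⟨k, -, rfl⟩ := mem_image.1 (show v ∈ (range r.L).image r.sq from hI)
  exact sq_not_mem _ _ _ hv

end Vale.Agent.P167.H135.Z
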